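import Vale.Agent.P100T.Five.Tpl
import Vale.Agent.P100T.BarrierEval

/-!
Numerators of `Et`, of the sign of the threshold rate and of `wm - U` in the variables
`N = Nn/m`, `σ = S/D`, `T = T'/D`, with `U = W/(D² K)`, `U' = A1/(D K)`, `U'' = A2/K`.
-/

noncomputable section

namespace Vale.Agent.P100T.Five

open PosCheck UpperCert

section templates

variable (Nn m H D K S T W A1 A2 : Ex)

def bV : Ex := S * (S - D) * K + W
def bVd : Ex := (c 2 * S - D) * K + A1
def bM : Ex := Nn * (D + T) * S * (T - S) * K - H * T * W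
def bC : Ex := Nn * bM Nn H D K S T W - c 2 * m * H * T * bV D K S W
def bC1 : Ex :=
  Nn * (Nn * (D + T) * (T - c 2 * S) * K - H * T * A1) - c 2 * m * H * T * bVd D K S A1
def bk1 : Ex := Nn * (D + T) + H * D - H * S
def bk2 : Ex := Nn * T - H * S
def bK : Ex := bk1 Nn H D S T * bk2 Nn H S T * K + c 2 * (Nn - m) * H * W
def bdK : Ex := c 2 * (Nn - m) * A1 - (bk2 Nn H S T + bk1 Nn H D S T) * K
def bE : Ex := bV D K S W * bK Nn m H D K S T W - Nn * H * (S + T) * bVd D K S A1 * W
def bE1 : Ex :=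
  (bVd D K S A1 * bK Nn m H D K S T W + H * bV D K S W * bdK Nn m H D K S T A1) * (S + T)
    - bV D K S W * bK Nn m H D K S T W
    - Nn * H * (S + T) * (S + T) * (c 2 * W * K + bVd D K S A1 * A1 + W * A2)
def bG : Ex :=
  S * (Nn * S - H * T) * ((Nn * (D + T) + H * T) * S - H * T * D) * K
    + c 2 * H * T * W * (Nn * S + m * T)
def bPh : Ex :=
  bG Nn m H D K S T W * bM Nn H D K S T W
    - c 2 * m * H * H * T * T * W * (S * S * K + A1 * S - W) * (S + T)
def bP : Ex :=
  H * T * S * W * (bE1 Nn m H D K S T W A1 A2 * bC Nn m H D K S T W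
      - (S + T) * bC1 Nn m H D K S T A1 * bE Nn m H D K S T W A1)
    - bE Nn m H D K S T W A1 * bPh Nn m H D K S T W A1

end templates

section eval

variable {N tb s u a b x y z : ℝ} {Nn m H D K S T W A1 A2 : Ex}
  (hNn : Nn.eval x y z = N * m.eval x y z) (hH : H.eval x y z = (N - 2) * m.eval x y z)
  (hs : S.eval x y z = s * D.eval x y z) (ht : T.eval x y z = tb * D.eval x y z)
  (hu : W.eval x y z = u * (D.eval x y z ^ 2 * K.eval x y z))
  (ha : A1.eval x y z = a * (D.eval x y z * K.eval x y z))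
  (hb : A2.eval x y z = b * K.eval x y z)
  (hN : 2 < N) (htb : 0 < tb) (hs0 : 0 < s)

include hNn hH hs ht hu ha hN htb hs0 in
lemma bE_eval : (bE Nn m H D K S T W A1).eval x y z =
    etR N tb s u a * (N * (N - 2) * (s + tb) * D.eval x y z ^ 4 * K.eval x y z ^ 2 * m.eval x y z ^ 2) := by
  have : N - 2 ≠ 0 := by linarith
  have : N ≠ 0 := by linarith
  have : s + tb ≠ 0 := by linarith
  simp only [bE, bV, bK, bk1, bk2, bVd, eval_add', eval_sub', eval_mul', eval_c, hNn, hH, hs, ht, hu, ha, etR, mR, pone]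
  generalize D.eval x y z = D₀
  generalize K.eval x y z = K₀
  generalize m.eval x y z = m₀
  push_cast
  field_simp

include hNn hH hs ht hu ha hb hN htb hs0 in
lemma bE1_eval : (bE1 Nn m H D K S T W A1 A2).eval x y z =
    etR' N tb s u a b * (N * (N - 2) * (s + tb) ^ 2 * D.eval x y z ^ 4 * K.eval x y z ^ 2
      * m.eval x y z ^ 2) := by
  have : N - 2 ≠ 0 := by linarith
  have : N ≠ 0 := by linarith
  have : s + tb ≠ 0 := by linarith
  simp only [bE1, bV, bK, bdK, bk1, bk2, bVd, eval_add', eval_sub', eval_mul', eval_c, hNn, hH, hs, ht, hu, ha, hb, etR', mR, mR', pone]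
  generalize D.eval x y z = D₀
  generalize K.eval x y z = K₀
  generalize m.eval x y z = m₀
  push_cast
  field_simp
  ring

include hNn hH hs ht hu hN htb hs0 in
lemma bC_eval : (bC Nn m H D K S T W).eval x y z =
    cfR N tb s u * (N * (N - 2) * tb * D.eval x y z ^ 3 * K.eval x y z * m.eval x y z ^ 2) := by
  have : N - 2 ≠ 0 := by linarith
  have : N ≠ 0 := by linarith
  have : s + tb ≠ 0 := by linarith
  have : tb ≠ 0 := htb.ne'
  simp only [bC, bM, bV, eval_add', eval_sub', eval_mul', eval_c, hNn, hH, hs, ht, hu, cfR, lR, pone]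
  generalize D.eval x y z = D₀
  generalize K.eval x y z = K₀
  generalize m.eval x y z = m₀
  push_cast
  field_simp

include hNn hH hs ht ha hN htb hs0 in
lemma bC1_eval : (bC1 Nn m H D K S T A1).eval x y z =
    cfR' N tb s a * (N * (N - 2) * tb * D.eval x y z ^ 2 * K.eval x y z * m.eval x y z ^ 2) := by
  have : N - 2 ≠ 0 := by linarith
  have : N ≠ 0 := by linarith
  have : s + tb ≠ 0 := by linarith
  have : tb ≠ 0 := htb.ne'
  simp only [bC1, bVd, eval_add', eval_sub', eval_mul', eval_c, hNn, hH, hs, ht, ha, cfR', pone]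
  generalize D.eval x y z = D₀
  generalize K.eval x y z = K₀
  generalize m.eval x y z = m₀
  push_cast
  field_simp

include hNn hH hs ht hu ha hN htb hs0 in
lemma bPh_eval : (bPh Nn m H D K S T W A1).eval x y z =
    phR N tb s u a * (N * (N - 2) ^ 2 * tb ^ 2 * s * (s + tb) * D.eval x y z ^ 7
      * K.eval x y z ^ 2 * m.eval x y z ^ 3) := by
  have : N - 2 ≠ 0 := by linarith
  have : N ≠ 0 := by linarith
  have : s + tb ≠ 0 := by linarith
  have : tb ≠ 0 := htb.ne'
  have : s ≠ 0 := hs0.ne'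
  simp only [bPh, bG, bM, eval_add', eval_sub', eval_mul', eval_c, hNn, hH, hs, ht, hu, ha, phR, khR, lR, pone]
  generalize D.eval x y z = D₀
  generalize K.eval x y z = K₀
  generalize m.eval x y z = m₀
  push_cast
  field_simp

include hNn hH hs ht hu ha hb hN htb hs0 in
lemma bP_eval : (bP Nn m H D K S T W A1 A2).eval x y z =
    pR N tb s u a b * (N ^ 2 * (N - 2) ^ 3 * tb ^ 2 * s * (s + tb) ^ 2 * D.eval x y z ^ 11
      * K.eval x y z ^ 4 * m.eval x y z ^ 5) := by
  simp only [bP, eval_add', eval_sub', eval_mul', bE1_eval hNn hH hs ht hu ha hb hN htb hs0,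
    bC_eval hNn hH hs ht hu hN htb hs0, bC1_eval hNn hH hs ht ha hN htb hs0,
    bE_eval hNn hH hs ht hu ha hN htb hs0, bPh_eval hNn hH hs ht hu ha hN htb hs0,
    hH, hs, ht, hu, pR]
  ring

end eval

/-! ### The barrier `U = A y (1 - 3/4 y/rb)` in the cases of `Five.Tpl`. -/

/-- `10 (N-2) D A`. -/
def uA (D T : Ex) : Ex := c 20 * Em * D + Eh * (T - D)
def uK (R ed : Ex) : Ex := c 1000 * Eh * ed * R
def uW (D T R en ed : Ex) : Ex := uA D T * (R * en) * (c 100 * ed - c 75 * en) * R
def uA1 (D T R en ed : Ex) : Ex := uA D T * (c 100 * ed - c 150 * en) * R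
def uA2 (D T : Ex) : Ex := c 0 - c 150 * uA D T
/-- The numerator of `wm - U`. -/
def uGap (D S T R en ed : Ex) : Ex :=
  S * (En * En * (D + T) * (T - S) - c 2 * Em * (S - D) * Eh * T) * (c 1000 * ed)
    - uA D T * (R * en) * (c 100 * ed - c 75 * en) * T * (En + c 2 * Em)

end Vale.Agent.P100T.Five
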