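import Vale.Agent.P100T.Five.BarTpl

/-!
Kernel checks for the upper barrier: `Et`, the threshold rate, and the crossing with `wm`.
-/

namespace Vale.Agent.P100T.Five

open PosCheck UpperCert

/-- `e = bn/bd` covers `0 < e < 95/100`. -/
def bn : Ex := c 95 * Ex.z
def bd : Ex := c 100 * (c 1 + Ex.z)
/-- `e = cn/cd` covers `95/100 ≤ e < 1`. -/
def cn : Ex := c 95 + c 100 * Ex.z
def cd : Ex := c 100 * (c 1 + Ex.z)
/-- `e = gnL/gdL` covers `0 < e < e0` when `σ∞ = 1`. -/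
def gnL : Ex := (c 9250 * LD0 - c 285 * (LT0 - LD0)) * Ex.z
def gdL : Ex := c 10000 * LD0 * (c 1 + Ex.z)
/-- `e = gnG/gdG` covers `0 < e < e0` when `σ∞ > 1`. -/
def gnG : Ex := c 905 * Ex.z
def gdG : Ex := c 1000 * (c 1 + Ex.z)

theorem checkL_E : check (bE En Em Eh (LD bd) (uK LR bd) (LS bn bd) (LT bd) (uW (LD bd) (LT bd) LR bn bd) (uA1 (LD bd) (LT bd) LR bn bd) - Ex.y * Ex.y * Ex.y * (Ex.z * Ex.z)) = true := by
  decide +kernel

theorem checkL_P : check (bP En Em Eh (LD bd) (uK LR bd) (LS bn bd) (LT bd) (uW (LD bd) (LT bd) LR bn bd) (uA1 (LD bd) (LT bd) LR bn bd) (uA2 (LD bd) (LT bd)) - Ex.y * Ex.y * Ex.y * (Ex.y * Ex.y * Ex.y) * (Ex.z * Ex.z)) = true := by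
  decide +kernel

theorem checkL_W : check (uGap (LD gdL) (LS gnL gdL) (LT gdL) LR gnL gdL - Ex.y) = true := by
  decide +kernel

theorem checkL_U : check (c 0 - uGap (LD cd) (LS cn cd) (LT cd) LR cn cd - Ex.y) = true := by
  decide +kernel

theorem checkG_E : check (bE En Em Eh (GD bd) (uK GR bd) (GS bn bd) (GT bd) (uW (GD bd) (GT bd) GR bn bd) (uA1 (GD bd) (GT bd) GR bn bd) - Ex.z) = true := by
  decide +kernel

theorem checkG_P : check (bP En Em Eh (GD bd) (uK GR bd) (GS bn bd) (GT bd) (uW (GD bd) (GT bd) GR bn bd) (uA1 (GD bd) (GT bd) GR bn bd) (uA2 (GD bd) (GT bd)) - Ex.z) = true := by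
  decide +kernel

theorem checkG_W : check (uGap (GD gdG) (GS gnG gdG) (GT gdG) GR gnG gdG - c 1) = true := by
  decide +kernel

theorem checkG_U : check (c 0 - uGap (GD cd) (GS cn cd) (GT cd) GR cn cd - c 1) = true := by
  decide +kernel

end Vale.Agent.P100T.Five
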