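import Vale.Agent.P100T.Five.Box
import Vale.Agent.P100T.Five.CertBar
import Vale.Agent.P100T.Barrier

/-!
The upper barrier `U` for `5 < N < 5.17`: `Et > 0` and the threshold rate on `σ∞ < σ < σ∞ + 0.95 rb`,
and where `U` crosses `wm`.
-/

noncomputable section

namespace Vale.Agent.P100T.Five

open PosCheck UpperCert

variable {N p q s x y z : ℝ}

/-- `U'`. -/
def U' (N p q s : ℝ) : ℝ := aA N p q * (1 - 3 / 2 * ((s - si N p q) / rb N p q))
/-- `Et` on `U`. -/
def Et (N p q s : ℝ) : ℝ :=
  (s * (s - 1) + U N p q s) * (k0 N p q s + 2 * nu N p q s * U N p q s)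
    - (2 * s - 1 + U' N p q s) * U N p q s
/-- `Cf` on `U`. -/
def Cf (N p q s : ℝ) : ℝ := (N + 2) / N * (wm N p q s - U N p q s)
/-- The threshold of `t`. -/
def Th (N p q s : ℝ) : ℝ := s - (s * (s - 1) + U N p q s) * Cf N p q s / Et N p q s

lemma U_hasDerivAt (N p q s : ℝ) : HasDerivAt (U N p q) (U' N p q s) s := by
  have h1 := (hasDerivAt_id' s).sub_const (si N p q)
  have h2 := ((h1.div_const (rb N p q)).const_mul (3 / 4)).const_sub 1
  exact ((h1.const_mul (aA N p q)).mul h2).congr_deriv (by rw [U']; ring)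

lemma U'_hasDerivAt (N p q s : ℝ) :
    HasDerivAt (U' N p q) (-(3 / 2 * aA N p q / rb N p q)) s := by
  have h1 := (hasDerivAt_id' s).sub_const (si N p q)
  have h2 := ((h1.div_const (rb N p q)).const_mul (3 / 2)).const_sub 1
  exact (h2.const_mul (aA N p q)).congr_deriv (by ring)

lemma aA_pos' (R : Range N p q) : 0 < aA N p q :=
  add_pos_of_pos_of_nonneg (div_pos two_pos (by linarith [R.hN]))
    (div_nonneg (by linarith [R.one_lt]) (by norm_num))

lemma U_pos (R : Range N p q) (h0 : si N p q < s) (h1 : s < si N p q + rb N p q) :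
    0 < U N p q s := by
  have hr := rb_pos R
  refine mul_pos (mul_pos (aA_pos' R) (by linarith)) ?_
  have : (s - si N p q) / rb N p q < 1 := (div_lt_one hr).2 (by linarith)
  linarith

lemma U_le_top (R : Range N p q) (h0 : si N p q ≤ s) : U N p q s ≤ top N p q s := by
  have hr := rb_pos R
  refine mul_le_mul_of_nonneg_left ?_ (mul_nonneg (aA_pos' R).le (by linarith))
  have : 0 ≤ (s - si N p q) / rb N p q := div_nonneg (by linarith) hr.le
  linarith

/-- The templates at a point, for either case. -/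
lemma Geo.bar_pos {en ed D S T Rr Cn Cd mE mP : Ex} (g : Geo N p q s y z en ed D S T Rr Cn Cd)
    (R : Range N p q)
    (hE : check (bE En Em Eh D (uK Rr ed) S T (uW D T Rr en ed) (uA1 D T Rr en ed) - mE) = true)
    (hP : check (bP En Em Eh D (uK Rr ed) S T (uW D T Rr en ed) (uA1 D T Rr en ed) (uA2 D T)
      - mP) = true)
    (hy : 0 ≤ y) (hz : 0 ≤ z) (hmE : 0 < mE.eval (xN N) y z) (hmP : 0 < mP.eval (xN N) y z)
    (hs : 0 < s) (hRr : Rr.eval (xN N) y z * ed.eval (xN N) y z
      = rb N p q * D.eval (xN N) y z) :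
    0 < etR N (tb p q) s (U N p q s) (U' N p q s) ∧
      0 < pR N (tb p q) s (U N p q s) (U' N p q s) (-(3 / 2 * aA N p q / rb N p q)) := by
  obtain ⟨eN, hm, eh⟩ := R.En_eval (y := y) (z := z)
  have hh : 0 < N - 2 := by linarith [R.hN]
  have hr := rb_pos R
  have hD := g.D_pos
  have hed := g.ed_pos
  have hRpos : 0 < Rr.eval (xN N) y z :=
    pos_of_mul_pos_left (hRr ▸ mul_pos hr hD) hed.le
  have eA : (uA D T).eval (xN N) y z
      = 10 * (N - 2) * Em.eval (xN N) y z * D.eval (xN N) y z * aA N p q := by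
    simp only [uA, eval_add', eval_sub', eval_mul', eval_c, eh, g.T_eq, aA]
    push_cast
    field_simp
    ring
  have eR := g.R_eq
  rw [eval_mul'] at eR
  have hu : (uW D T Rr en ed).eval (xN N) y z = U N p q s
      * (D.eval (xN N) y z ^ 2 * (uK Rr ed).eval (xN N) y z) := by
    simp only [uW, uK, eval_mul', eval_sub', eval_c, eA, eh, eR, U]
    rw [g.e_eq]
    push_cast
    ring
  have ha : (uA1 D T Rr en ed).eval (xN N) y z = U' N p q s
      * (D.eval (xN N) y z * (uK Rr ed).eval (xN N) y z) := by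
    simp only [uA1, uK, eval_mul', eval_sub', eval_c, eA, eh, U']
    rw [g.e_eq]
    push_cast
    ring
  have hb : (uA2 D T).eval (xN N) y z
      = -(3 / 2 * aA N p q / rb N p q) * (uK Rr ed).eval (xN N) y z := by
    simp only [uA2, uK, eval_mul', eval_sub', eval_c, eA, eh]
    push_cast
    rw [show (1000 * ((N - 2) * Em.eval (xN N) y z) * ed.eval (xN N) y z * Rr.eval (xN N) y z)
      = 1000 * ((N - 2) * Em.eval (xN N) y z) * (rb N p q * D.eval (xN N) y z) by
        rw [← hRr]; ring]
    field_simp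
    ring
  have hK : 0 < (uK Rr ed).eval (xN N) y z := by
    simp only [uK, eval_mul', eval_c, eh]
    push_cast
    positivity
  have e1 := pos_of_sub hE R.xN_pos.le hy hz hmE
  have e2 := pos_of_sub hP R.xN_pos.le hy hz hmP
  have htb : 0 < tb p q := by linarith [R.one_lt]
  rw [bE_eval eN eh g.S_eq g.T_eq hu ha (by linarith) htb hs] at e1
  rw [bP_eval eN eh g.S_eq g.T_eq hu ha hb (by linarith) htb hs] at e2
  have : 0 < N := by linarith
  exact ⟨pos_of_mul_pos_left e1 (by positivity), pos_of_mul_pos_left e2 (by positivity)⟩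

/-- The numerator of `wm - U`. -/
lemma Geo.gap_eval {en ed D S T Rr Cn Cd : Ex} (g : Geo N p q s y z en ed D S T Rr Cn Cd)
    (R : Range N p q) :
    (uGap D S T Rr en ed).eval (xN N) y z = (wm N p q s - U N p q s)
      * (1000 * ed.eval (xN N) y z * D.eval (xN N) y z ^ 2 * T.eval (xN N) y z
        * Eh.eval (xN N) y z * ((En + c 2 * Em).eval (xN N) y z)) := by
  obtain ⟨eN, hm, eh⟩ := R.En_eval (y := y) (z := z)
  have hh : 0 < N - 2 := by linarith [R.hN]
  have : N + 2 ≠ 0 := by linarith
  have : tb p q ≠ 0 := by linarith [R.one_lt]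
  have eR := g.R_eq
  rw [eval_mul'] at eR
  simp only [uGap, uA, eval_add', eval_sub', eval_mul', eval_c, eN, eh, g.S_eq, g.T_eq, eR, wm, U,
    aA]
  rw [g.e_eq, R.hp1, R.hq1]
  push_cast
  field_simp
  ring

/-- `rb` in the units of the case. -/
lemma Geo.rb_units {en ed D S T Rr Cn Cd : Ex} (g : Geo N p q s y z en ed D S T Rr Cn Cd)
    (R : Range N p q) (hs : si N p q < s) :
    Rr.eval (xN N) y z * ed.eval (xN N) y z = rb N p q * D.eval (xN N) y z := by
  have hr := rb_pos R
  have eR := g.R_eq
  rw [eval_mul', g.e_eq] at eR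
  have : s - si N p q ≠ 0 := by linarith
  field_simp at eR
  linarith

/-- `Et > 0` and the threshold rate, in the variables of `BarrierEval`. -/
lemma sign_pos5 (R : Range N p q) (h0 : si N p q < s) (h1 : s < si N p q + 95 / 100 * rb N p q) :
    0 < etR N (tb p q) s (U N p q s) (U' N p q s) ∧
      0 < pR N (tb p q) s (U N p q s) (U' N p q s) (-(3 / 2 * aA N p q / rb N p q)) := by
  have hr := rb_pos R
  have hs1 : 1 < s := lt_of_le_of_lt (le_max_left _ _) h0
  set e := (s - si N p q) / rb N p q with he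
  have he0 : 0 < e := div_pos (by linarith) hr
  have he1 : e < 95 / 100 := (div_lt_iff₀ hr).2 (by linarith)
  obtain ⟨z, hz0, hze⟩ : ∃ z, 0 < z ∧ 95 * z = e * (100 * (1 + z)) := by
    refine ⟨100 * e / (95 - 100 * e), div_pos (by linarith) (by linarith), ?_⟩
    have : 95 - 100 * e ≠ 0 := by linarith
    field_simp
    ring
  rcases lt_or_ge ((N - 2) * tb p q) N with hc | hc
  · obtain ⟨y, hy, g⟩ := geoL (z := z) R hc (en := bn) (ed := bd)
      (fun y => by simp [bd, Ex.eval]; linarith) (fun y => by simpa [bn, bd, Ex.eval] using hze)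
    exact g.bar_pos R checkL_E checkL_P hy.le hz0.le (by simp [Ex.eval]; positivity)
      (by simp [Ex.eval]; positivity) (by linarith) (g.rb_units R h0)
  · obtain ⟨y, hy, g⟩ := geoG (z := z) R hc (en := bn) (ed := bd)
      (fun y => by simp [bd, Ex.eval]; linarith) (fun y => by simpa [bn, bd, Ex.eval] using hze)
    exact g.bar_pos R checkG_E checkG_P hy hz0.le (by simp [Ex.eval]; positivity)
      (by simp [Ex.eval]; positivity) (by linarith) (g.rb_units R h0)

/-- **The upper barrier.** -/
theorem barrier5 (R : Range N p q) (h0 : si N p q < s)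
    (h1 : s < si N p q + 95 / 100 * rb N p q) :
    0 < Et N p q s ∧ ∃ T' : ℝ, HasDerivAt (Th N p q) T' s ∧
      ((p + 1) - (q + 1) * s) * Th N p q s < T' * U N p q s := by
  have hN := R.hN
  have hs1 : 1 < s := lt_of_le_of_lt (le_max_left _ _) h0
  have htb : 0 < tb p q := by linarith [R.one_lt]
  have hpone : pone N (tb p q) = p + 1 := by rw [pone, R.hp1]
  have hne : N - 2 ≠ 0 := by linarith
  have hq1 : pone N (tb p q) / tb p q = q + 1 := by
    rw [pone, R.hq1]; field_simp
  have hpq : p + 1 = (q + 1) * tb p q := by rw [← hq1, hpone]; field_simp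
  have hEt : ∀ x, Et N p q x = etR N (tb p q) x (U N p q x) (U' N p q x) := by
    intro x
    simp only [Et, k0, nu, etR, mR, hpone]
    simp only [tb]
    ring
  have hCf : ∀ x, Cf N p q x = cfR N (tb p q) x (U N p q x) := by
    intro x
    have : N + 2 ≠ 0 := by linarith
    have : N ≠ 0 := by linarith
    simp only [Cf, wm, cfR, lR, hq1]
    field_simp
    rw [hpq]
    ring
  obtain ⟨he, hP⟩ := sign_pos5 R h0 h1
  have hr := rb_pos R
  set b : ℝ := -(3 / 2 * aA N p q / rb N p q)
  refine ⟨by rw [hEt]; exact he, ?_⟩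
  have dE := etR_hasDerivAt (tb := tb p q) (U_hasDerivAt N p q s) (U'_hasDerivAt N p q s)
    (show N ≠ 0 by linarith) (by linarith)
  have dC := cfR_hasDerivAt (N := N) (tb := tb p q) (U_hasDerivAt N p q s)
  have hi := hasDerivAt_id' s
  have dV := (hi.mul (hi.sub_const 1)).add (U_hasDerivAt N p q s)
  have dT := hi.sub ((dV.mul dC).div dE he.ne')
  have hfun : Th N p q = fun x => x - (x * (x - 1) + U N p q x)
      * cfR N (tb p q) x (U N p q x) / etR N (tb p q) x (U N p q x) (U' N p q x) := by
    funext x; rw [Th, hEt, hCf]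
  refine ⟨1 - (((2 * s - 1 + U' N p q s) * cfR N (tb p q) s (U N p q s)
        + (s * (s - 1) + U N p q s) * cfR' N (tb p q) s (U' N p q s))
        * etR N (tb p q) s (U N p q s) (U' N p q s)
        - (s * (s - 1) + U N p q s) * cfR N (tb p q) s (U N p q s)
          * etR' N (tb p q) s (U N p q s) (U' N p q s) b)
        / etR N (tb p q) s (U N p q s) (U' N p q s) ^ 2, ?_, ?_⟩
  · rw [hfun]
    exact dT.congr_deriv (by simp only [Pi.add_apply, Pi.mul_apply, b]; ring)
  have hU := U_pos R h0 (by linarith [rb_pos R])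
  have hV : 0 < s * (s - 1) + U N p q s := by
    have := mul_pos (show (0:ℝ) < s by linarith) (show (0:ℝ) < s - 1 by linarith)
    linarith
  have key := threshold_rate N (tb p q) s (U N p q s) (U' N p q s) b (by linarith) htb
    (by linarith) he.ne'
  have hpos : 0 < (s * (s - 1) + U N p q s)
      * pR N (tb p q) s (U N p q s) (U' N p q s) b
      / etR N (tb p q) s (U N p q s) (U' N p q s) ^ 2 := by positivity
  have hL : lR N (tb p q) s = (p + 1) - (q + 1) * s := by
    rw [lR, hq1, hpq]; ring
  rw [congrFun hfun s, ← hL]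
  rw [← key] at hpos
  linarith

lemma gap_units_pos {en ed D S T Rr Cn Cd : Ex} (g : Geo N p q s y z en ed D S T Rr Cn Cd)
    (R : Range N p q) :
    0 < 1000 * ed.eval (xN N) y z * D.eval (xN N) y z ^ 2 * T.eval (xN N) y z
        * Eh.eval (xN N) y z * ((En + c 2 * Em).eval (xN N) y z) := by
  obtain ⟨eN, hm, eh⟩ := R.En_eval (y := y) (z := z)
  have := g.D_pos; have := g.ed_pos
  have : 0 < N - 2 := by linarith [R.hN]
  have : 0 < N := by linarith
  have : 0 < tb p q := by linarith [R.one_lt]
  rw [eval_add', eval_mul', eval_c, eN, eh, g.T_eq]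
  push_cast
  positivity

/-- `U < wm` up to `e0`. -/
theorem U_lt_wm (R : Range N p q) (h0 : si N p q < s) (h1 : s < si N p q + e0 N p q * rb N p q) :
    U N p q s < wm N p q s := by
  have hr := rb_pos R
  have hN := R.hN
  have hT := R.one_lt
  set e := (s - si N p q) / rb N p q with he
  have he0 : 0 < e := div_pos (by linarith) hr
  have he1 : e < e0 N p q := (div_lt_iff₀ hr).2 (by linarith)
  obtain ⟨z, hz0, hze⟩ : ∃ z, 0 < z ∧ e0 N p q * z = e * (1 + z) := by
    refine ⟨e / (e0 N p q - e), div_pos he0 (by linarith), ?_⟩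
    have : e0 N p q - e ≠ 0 := by linarith
    field_simp
    ring
  rcases lt_or_ge ((N - 2) * tb p q) N with hc | hc
  · have hg : 0 < 2 - (N - 2) * (tb p q - 1) := by nlinarith
    obtain ⟨y, hy0, hdy⟩ : ∃ y, 0 < y ∧ (tb p q - 1) * ((N - 2) * (1 + y)) = 2 * y := by
      refine ⟨(N - 2) * (tb p q - 1) / (2 - (N - 2) * (tb p q - 1)),
        div_pos (mul_pos (by linarith) (by linarith)) hg, ?_⟩
      rw [one_add_div hg.ne', mul_div_assoc', mul_div_assoc', mul_div_assoc']
      congr 1
      ring
    obtain ⟨eN, hm, eh⟩ := R.En_eval (y := y) (z := z)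
    have hD0 : (LD0).eval (xN N) y z = (N - 2) * Em.eval (xN N) y z * (1 + y) := by
      simp only [LD0, eval_mul', eval_add', eval_c, eh, Ex.eval]
      push_cast; ring
    have hTd : (LT0).eval (xN N) y z - (LD0).eval (xN N) y z
        = (tb p q - 1) * (LD0).eval (xN N) y z := by
      simp only [LT0, eval_add', eval_mul', eval_c, hD0, Ex.eval]
      push_cast
      linear_combination (-Em.eval (xN N) y z) * hdy
    have g := geoL' (z := z) (s := s) R hc y hy0 hdy (en := gnL) (ed := gdL)
      (by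
        rw [gdL]; simp only [eval_mul', eval_add', eval_c, hD0, Ex.eval]
        have : 0 < N - 2 := by linarith
        push_cast; positivity)
      (by
        simp only [gnL, gdL, eval_mul', eval_sub', eval_add', eval_c, hTd, Ex.eval]
        rw [e0, if_pos hc] at hze
        rw [← he]
        push_cast
        linear_combination (10000 * (LD0).eval (xN N) y z) * hze)
    have hp := pos_of_sub checkL_W R.xN_pos.le hy0.le hz0.le (by simpa [Ex.eval] using hy0)
    rw [g.gap_eval R] at hp
    exact sub_pos.1 (pos_of_mul_pos_left hp (gap_units_pos g R).le)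
  · obtain ⟨y, hy, g⟩ := geoG (z := z) R hc (en := gnG) (ed := gdG)
      (fun y => by simp [gdG, Ex.eval]; linarith)
      (fun y => by
        rw [e0, if_neg (not_lt.2 hc)] at hze
        simp [gnG, gdG, Ex.eval]
        linarith)
    have hp := pos_of_sub checkG_W R.xN_pos.le hy hz0.le (by simp [Ex.eval])
    rw [g.gap_eval R] at hp
    exact sub_pos.1 (pos_of_mul_pos_left hp (gap_units_pos g R).le)

/-- `wm < U` from `0.95` on. -/
theorem wm_lt_U (R : Range N p q) (h0 : si N p q + 95 / 100 * rb N p q ≤ s)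
    (h1 : s < si N p q + rb N p q) : wm N p q s < U N p q s := by
  have hr := rb_pos R
  set e := (s - si N p q) / rb N p q with he
  have he0 : 95 / 100 ≤ e := by rw [le_div_iff₀ hr]; linarith
  have he1 : e < 1 := (div_lt_one hr).2 (by linarith)
  obtain ⟨z, hz0, hze⟩ : ∃ z, 0 ≤ z ∧ 95 + 100 * z = e * (100 * (1 + z)) := by
    refine ⟨(100 * e - 95) / (100 * (1 - e)), div_nonneg (by linarith) (by linarith), ?_⟩
    have : 1 - e ≠ 0 := by linarith
    field_simp
    ring
  rcases lt_or_ge ((N - 2) * tb p q) N with hc | hc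
  · obtain ⟨y, hy, g⟩ := geoL (z := z) R hc (en := cn) (ed := cd)
      (fun y => by simp [cd, Ex.eval]; linarith) (fun y => by simpa [cn, cd, Ex.eval] using hze)
    have hp := pos_of_sub checkL_U R.xN_pos.le hy.le hz0 (by simpa [Ex.eval] using hy)
    rw [eval_sub', g.gap_eval R, eval_c] at hp
    push_cast at hp
    nlinarith [gap_units_pos g R]
  · obtain ⟨y, hy, g⟩ := geoG (z := z) R hc (en := cn) (ed := cd)
      (fun y => by simp [cd, Ex.eval]; linarith) (fun y => by simpa [cn, cd, Ex.eval] using hze)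
    have hp := pos_of_sub checkG_U R.xN_pos.le hy hz0 (by simp [Ex.eval])
    rw [eval_sub', g.gap_eval R, eval_c] at hp
    push_cast at hp
    nlinarith [gap_units_pos g R]

end Vale.Agent.P100T.Five
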