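import Vale.Agent.P100T.Five.Tpl

/-!
Kernel checks of the strict conditions on the box, case `σ∞ > 1`.
-/

namespace Vale.Agent.P100T.Five

open PosCheck UpperCert

/-- Denominator of `e = z/(1+z)`. -/
def Ge : Ex := c 1 + Ex.z
/-- Numerator of `e` after `τ₀`. -/
def Gn' : Ex := c 85 + c 100 * Ex.z
/-- Denominator of `e` after `τ₀`. -/
def Ge' : Ex := c 100 * (c 1 + Ex.z)

/-- Bernstein coefficients in `W` on the box. -/
def Gbox (en ed : Ex) (l : List Ex) : List Ex :=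
  bernL (c 0) (topN (GD ed) (GT ed) GR en ed) (topD ed) l

theorem checkG_nP2 : checkAll (c 1)
    (Gbox Ex.z Ge
      (nP2 En Em Eh (GD Ge) (GS Ex.z Ge) (GT Ge) (GCn Ge) (GCd Ge) (wN (GD Ge) (GT Ge)) (wD (GD Ge) (GT Ge)))) = true := by
  decide +kernel

theorem checkG_nR0 : checkAll (c 1)
    (Gbox Ex.z Ge
      (nR0 En Em Eh (GD Ge) (GS Ex.z Ge) (GT Ge) (GCn Ge) (GCd Ge) (wN (GD Ge) (GT Ge)) (wD (GD Ge) (GT Ge)))) = true := by
  decide +kernel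

theorem checkG_nRP : checkAll (Ex.z)
    (Gbox Ex.z Ge
      (nRZ En Em Eh (GD Ge) (GS Ex.z Ge) (GT Ge) (GCn Ge) (GCd Ge) (wN (GD Ge) (GT Ge)) (wD (GD Ge) (GT Ge)) (GS Ex.z Ge))) = true := by
  decide +kernel

theorem checkG_nRM : checkAll (c 1)
    (Gbox Gn' Ge'
      (nRZ En Em Eh (GD Ge') (GS Gn' Ge') (GT Ge') (GCn Ge') (GCd Ge') (wN (GD Ge') (GT Ge')) (wD (GD Ge') (GT Ge')) (GS Gn' Ge' - GT Ge'))) = true := by
  decide +kernel

theorem checkG_nDisc : checkAll (Ex.z * Ex.z)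
    (Gbox Ex.z Ge
      (nDisc En Em Eh (GD Ge) (GS Ex.z Ge) (GT Ge) (GCn Ge) (GCd Ge) (wN (GD Ge) (GT Ge)) (wD (GD Ge) (GT Ge)))) = true := by
  decide +kernel

end Vale.Agent.P100T.Five
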