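import Vale.Agent.P100T.Five.Tpl

/-!
Kernel checks of the strict conditions on the box, case `σ∞ = 1`.
-/

namespace Vale.Agent.P100T.Five

open PosCheck UpperCert

/-- Denominator of `e = z/(1+z)`. -/
def Le : Ex := c 1 + Ex.z
/-- Numerator of `e` after `τ₀`. -/
def Ln' : Ex := c 85 + c 100 * Ex.z
/-- Denominator of `e` after `τ₀`. -/
def Le' : Ex := c 100 * (c 1 + Ex.z)

/-- Bernstein coefficients in `W` on the box. -/
def Lbox (en ed : Ex) (l : List Ex) : List Ex :=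
  bernL (c 0) (topN (LD ed) (LT ed) LR en ed) (topD ed) l

theorem checkL_nP2 : checkAll (Ex.y * Ex.y)
    (Lbox Ex.z Le
      (nP2 En Em Eh (LD Le) (LS Ex.z Le) (LT Le) (LCn Le) (LCd Le) (wN (LD Le) (LT Le)) (wD (LD Le) (LT Le)))) = true := by
  decide +kernel

theorem checkL_nR0 : checkAll (Ex.y)
    (Lbox Ex.z Le
      (nR0 En Em Eh (LD Le) (LS Ex.z Le) (LT Le) (LCn Le) (LCd Le) (wN (LD Le) (LT Le)) (wD (LD Le) (LT Le)))) = true := by
  decide +kernel

theorem checkL_nRP : checkAll (Ex.y * Ex.z)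
    (Lbox Ex.z Le
      (nRZ En Em Eh (LD Le) (LS Ex.z Le) (LT Le) (LCn Le) (LCd Le) (wN (LD Le) (LT Le)) (wD (LD Le) (LT Le)) (LS Ex.z Le))) = true := by
  decide +kernel

theorem checkL_nRM : checkAll (Ex.y * Ex.y)
    (Lbox Ln' Le'
      (nRZ En Em Eh (LD Le') (LS Ln' Le') (LT Le') (LCn Le') (LCd Le') (wN (LD Le') (LT Le')) (wD (LD Le') (LT Le')) (LS Ln' Le' - LT Le'))) = true := by
  decide +kernel

theorem checkL_nDisc : checkAll (Ex.y * Ex.y * Ex.y * Ex.y * (Ex.z * Ex.z))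
    (Lbox Ex.z Le
      (nDisc En Em Eh (LD Le) (LS Ex.z Le) (LT Le) (LCn Le) (LCd Le) (wN (LD Le) (LT Le)) (wD (LD Le) (LT Le)))) = true := by
  decide +kernel

end Vale.Agent.P100T.Five
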