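import Vale.Agent.P100T.TailFive
import Vale.Agent.P100T.Invariants
import Vale.Agent.P100T.Extension

/-!
Constants of the certificate for `5 < N ≤ 5.17`, `1 < T = (p+1)/(q+1) < 2 - 1.69 (N-5)`.
-/

noncomputable section

namespace Vale.Agent.P100T.Five

variable (N p q : ℝ)

/-- `T = (p+1)/(q+1)`. -/
def tb : ℝ := (p + 1) / (q + 1)
/-- `σ∞`. -/
def si : ℝ := max 1 (sEq N p q)
/-- An upper bound for `s₂ - σ∞`. -/
def rb : ℝ :=
  if (N - 2) * tb p q < N then 895 / 1000 * (tb p q - 1)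
  else 2 * tb p q / N *
    ((8724 - 441 * (((N - 2) * tb p q - N) / (2 * (N - 2) - N))) / 10000)
/-- The slope of the upper barrier at `σ∞`. -/
def aA : ℝ := 2 / (N - 2) + (tb p q - 1) / 10
/-- The upper barrier before `τ₀`. -/
def U (s : ℝ) : ℝ :=
  aA N p q * (s - si N p q) * (1 - 3 / 4 * ((s - si N p q) / rb N p q))
/-- The top of the box. -/
def top (s : ℝ) : ℝ :=
  aA N p q * (s - si N p q) * (1 - 66 / 100 * ((s - si N p q) / rb N p q))
/-- `σ₀` is at least `σ∞ + e0 · rb`. -/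
def e0 : ℝ := if (N - 2) * tb p q < N then (9250 - 285 * (tb p q - 1)) / 10000 else 905 / 1000
/-- The scale `1 - 2/5 (N - 5)`. -/
def sc : ℝ := 1 - 2 / 5 * (N - 5)
/-- Slope of the lower line. -/
def kL : ℝ := sc N * (655 + 1170 * (tb p q - 1)) / 10000
/-- Height of the lower line at `s₂`. -/
def cL : ℝ := sc N * (576 + 448 * (tb p q - 1)) / 10000 * (tb p q - 1)
/-- The lower line. -/
def low (s : ℝ) : ℝ := kL N p q * (s - sTwo N p q) + cL N p q
/-- The slope of `wm` on `σ ≤ s₂`. -/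
def K2 : ℝ := sTwo N p q * (N * (q + 1) + 2) / (N + 2)
/-- Lower floor of the bound after `τ₀`. -/
def bF : ℝ := sc N * (634 + 484 * (tb p q - 1)) / 10000 * (tb p q - 1)
/-- The perturbation of the weight. -/
def mW : ℝ := 5 * (tb p q - 1) / (10 + 7 * (tb p q - 1))
/-- The constant `c`. -/
def c1 : ℝ :=
  if (N - 2) * tb p q ≤ N then -((N - 1) * (p + 1) / ((N - 2) * (p + q + 2)))
  else -N / (2 * (N - 2)) - 7 / 50 * (sInf' N p q - 1)
/-- The certificate. -/
def par : CPar := TailFive.par N p q (mW p q) (c1 N p q)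

/-- The parameters covered. -/
structure Range : Prop where
  hN : 5 < N
  hN' : N < 517 / 100
  hq : 0 < q
  hpq : q < p
  hcrit : N / (p + 1) + N / (q + 1) = N - 2
  hT : tb p q < 2 - 169 / 100 * (N - 5)

variable {N p q}

lemma Range.hp (h : Range N p q) : 0 < p := h.hq.trans h.hpq

lemma Range.one_lt (h : Range N p q) : 1 < tb p q := by
  rw [tb, one_lt_div (by linarith [h.hq])]
  linarith [h.hpq]

lemma Range.lt_two (h : Range N p q) : tb p q < 2 := by linarith [h.hT, h.hN]

lemma Range.hp1 (h : Range N p q) : p + 1 = N * (1 + tb p q) / (N - 2) := by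
  rw [eq_div_iff (by linarith [h.hN] : N - 2 ≠ 0)]
  have := crit_iff h.hp h.hq h.hcrit
  simp only [tb]
  linarith

lemma Range.hq1 (h : Range N p q) : q + 1 = N * (1 + tb p q) / ((N - 2) * tb p q) := by
  have hT := h.one_lt
  have e : p + 1 = tb p q * (q + 1) := by
    rw [tb, div_mul_cancel₀ _ (by linarith [h.hq] : q + 1 ≠ 0)]
  have := h.hp1
  rw [e] at this
  have : N - 2 ≠ 0 := by linarith [h.hN]
  field_simp at *
  linarith

lemma Range.sEq_eq (h : Range N p q) : sEq N p q = (N - 2) * tb p q / N := by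
  rw [sEq, tb]; ring

lemma Range.adm (h : Range N p q) : (par N p q).Adm := by
  refine ⟨?_, h.hp, h.hq, crit_prod h.hp h.hq h.hcrit⟩
  show 4 < N
  linarith [h.hN]

end Vale.Agent.P100T.Five
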