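import Vale.Agent.P100T.Five.BoxEval
import Vale.Agent.P100T.Five.Def
import Vale.Agent.P100T.Five.CertL
import Vale.Agent.P100T.Five.CertG
import Vale.Agent.P100T.AssemblyTail

/-!
The strict inequalities of the certificate on the box `σ∞ < σ < σ∞ + rb`, `0 < W < top σ`.
-/

noncomputable section

namespace Vale.Agent.P100T.Five

open PosCheck UpperCert

variable {N p q s W x y z : ℝ}

/-- The substitution for `N`. -/
def xN (N : ℝ) : ℝ := 100 * (N - 5) / (517 - 100 * N)

lemma Range.xN_pos (R : Range N p q) : 0 < xN N := by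
  have := R.hN; have := R.hN'
  exact div_pos (by linarith) (by linarith)

lemma Range.En_eval (R : Range N p q) :
    En.eval (xN N) y z = N * Em.eval (xN N) y z ∧ 0 < Em.eval (xN N) y z
      ∧ Eh.eval (xN N) y z = (N - 2) * Em.eval (xN N) y z := by
  have hx := R.xN_pos
  have : 517 - 100 * N ≠ 0 := by linarith [R.hN']
  have e : En.eval (xN N) y z = N * Em.eval (xN N) y z := by
    simp only [En, Em, xN, eval_add', eval_mul', eval_c, Ex.eval]
    push_cast
    field_simp
    ring
  refine ⟨e, ?_, ?_⟩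
  · simp only [Em, eval_add', eval_mul', eval_c, Ex.eval]
    push_cast
    positivity
  · rw [Eh, eval_sub', eval_mul', eval_c, e]
    push_cast
    ring

/-- What a case provides at a point `σ = σ∞ + rb · en/ed`. -/
structure Geo (N p q s y z : ℝ) (en ed D S T R Cn Cd : Ex) : Prop where
  D_pos : 0 < D.eval (xN N) y z
  ed_pos : 0 < ed.eval (xN N) y z
  S_eq : S.eval (xN N) y z = s * D.eval (xN N) y z
  T_eq : T.eval (xN N) y z = tb p q * D.eval (xN N) y z
  R_eq : (R * en).eval (xN N) y z = (s - si N p q) * D.eval (xN N) y z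
  e_eq : en.eval (xN N) y z = (s - si N p q) / rb N p q * ed.eval (xN N) y z
  C_eq : Cn.eval (xN N) y z = c1 N p q * Cd.eval (xN N) y z
  Cd_pos : 0 < Cd.eval (xN N) y z

/-- The case `σ∞ = 1`, at the given `y`. -/
lemma geoL' (R : Range N p q) (h : (N - 2) * tb p q < N) (y : ℝ) (hy0 : 0 < y)
    (hdy : (tb p q - 1) * ((N - 2) * (1 + y)) = 2 * y) {en ed : Ex}
    (he : 0 < ed.eval (xN N) y z)
    (hen : en.eval (xN N) y z = (s - si N p q) / rb N p q * ed.eval (xN N) y z) :
    Geo N p q s y z en ed (LD ed) (LS en ed) (LT ed) LR (LCn ed) (LCd ed) := by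
  have hN := R.hN
  have hT := R.one_lt
  obtain ⟨eN, hm, eh⟩ := R.En_eval (y := y) (z := z)
  have hsi : si N p q = 1 := by
    rw [si, R.sEq_eq, max_eq_left]
    rw [div_le_one (by linarith)]; linarith
  have hrb : rb N p q = 895 / 1000 * (tb p q - 1) := by rw [rb, if_pos h]
  have hD : (LD ed).eval (xN N) y z
      = 1000 * ((N - 2) * Em.eval (xN N) y z * (1 + y)) * ed.eval (xN N) y z := by
    simp only [LD, LD0, eval_mul', eval_add', eval_c, eh, Ex.eval]; push_cast; ring
  have hD0 : 0 < (LD ed).eval (xN N) y z := by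
    rw [hD]; have := he; have : 0 < N - 2 := by linarith
    positivity
  have hTe : (LT ed).eval (xN N) y z = tb p q * (LD ed).eval (xN N) y z := by
    rw [hD]
    simp only [LT, LT0, LD0, eval_mul', eval_add', eval_c, eh, Ex.eval]
    push_cast
    linear_combination (-(1000 * Em.eval (xN N) y z * ed.eval (xN N) y z)) * hdy
  have hd : tb p q - 1 ≠ 0 := by linarith
  have hR : (LR * en).eval (xN N) y z = (s - si N p q) * (LD ed).eval (xN N) y z := by
    rw [hD]
    simp only [LR, eval_mul', eval_c, hen, hrb, Ex.eval]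
    push_cast
    generalize Em.eval (xN N) y z = M
    generalize ed.eval (xN N) y z = E
    calc 895 * 2 * M * y * ((s - si N p q) / (895 / 1000 * (tb p q - 1)) * E)
        = 895 * M * ((tb p q - 1) * ((N - 2) * (1 + y)))
            * ((s - si N p q) / (895 / 1000 * (tb p q - 1)) * E) := by rw [hdy]; ring
      _ = _ := by field_simp
  refine ⟨hD0, he, ?_, hTe, hR, hen, ?_, ?_⟩
  · rw [LS, eval_add', hR, hsi]; ring
  · simp only [LCn, LCd, eval_sub', eval_mul', eval_add', eval_c, eN, eh, hTe, c1, if_pos h.le]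
    have hk := R.hp1
    have hk' := R.hq1
    rw [show p + q + 2 = (p + 1) + (q + 1) by ring, hk, hk']
    have : N - 2 ≠ 0 := by linarith
    have : 1 + tb p q ≠ 0 := by linarith
    push_cast
    field_simp
    ring
  · simp only [LCd, eval_mul', eval_add', eh, hTe]
    have : 0 < N - 2 := by linarith
    have : 0 < tb p q := by linarith
    positivity

/-- The case `σ∞ = 1`. -/
lemma geoL (R : Range N p q) (h : (N - 2) * tb p q < N) {en ed : Ex}
    (he : ∀ y, 0 < ed.eval (xN N) y z)
    (hen : ∀ y, en.eval (xN N) y z = (s - si N p q) / rb N p q * ed.eval (xN N) y z) :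
    ∃ y, 0 < y ∧ Geo N p q s y z en ed (LD ed) (LS en ed) (LT ed) LR (LCn ed) (LCd ed) := by
  have hN := R.hN
  have hT := R.one_lt
  have hg : 0 < 2 - (N - 2) * (tb p q - 1) := by nlinarith
  obtain ⟨y, hy0, hdy⟩ : ∃ y, 0 < y ∧ (tb p q - 1) * ((N - 2) * (1 + y)) = 2 * y := by
    refine ⟨(N - 2) * (tb p q - 1) / (2 - (N - 2) * (tb p q - 1)),
      div_pos (mul_pos (by linarith) (by linarith)) hg, ?_⟩
    generalize tb p q = t at *
    rw [one_add_div hg.ne', mul_div_assoc', mul_div_assoc', mul_div_assoc']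
    congr 1
    ring
  exact ⟨y, hy0, geoL' R h y hy0 hdy (he y) (hen y)⟩

/-- The case `σ∞ ≥ 1`. -/
lemma geoG (R : Range N p q) (h : N ≤ (N - 2) * tb p q) {en ed : Ex}
    (he : ∀ y, 0 < ed.eval (xN N) y z)
    (hen : ∀ y, en.eval (xN N) y z = (s - si N p q) / rb N p q * ed.eval (xN N) y z) :
    ∃ y, 0 ≤ y ∧ Geo N p q s y z en ed (GD ed) (GS en ed) (GT ed) GR (GCn ed) (GCd ed) := by
  have hN := R.hN
  have hT := R.one_lt
  have hT2 := R.lt_two
  have hg : 0 < (2 - tb p q) * (N - 2) := mul_pos (by linarith) (by linarith)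
  obtain ⟨y, hy0, hdy⟩ : ∃ y, 0 ≤ y ∧ tb p q * ((N - 2) * (1 + y)) = N + 2 * (N - 2) * y := by
    refine ⟨((N - 2) * tb p q - N) / ((2 - tb p q) * (N - 2)),
      div_nonneg (by linarith) hg.le, ?_⟩
    generalize tb p q = t at *
    rw [one_add_div hg.ne', mul_div_assoc', mul_div_assoc', mul_div_assoc',
      ← sub_eq_iff_eq_add, ← sub_div, div_eq_iff hg.ne']
    ring
  obtain ⟨eN, hm, eh⟩ := R.En_eval (y := y) (z := z)
  have hsi : si N p q = (N - 2) * tb p q / N := by
    rw [si, R.sEq_eq, max_eq_right]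
    rw [le_div_iff₀ (by linarith)]; linarith
  have hu : ((N - 2) * tb p q - N) / (2 * (N - 2) - N) = y / (1 + y) := by
    have : 2 * (N - 2) - N ≠ 0 := by linarith
    have : 1 + y ≠ 0 := by linarith
    field_simp
    linear_combination hdy
  have hrb : rb N p q = 2 * tb p q / N * ((8724 + 8283 * y) / (10000 * (1 + y))) := by
    rw [rb, if_neg (not_lt.2 h), hu]
    have : 1 + y ≠ 0 := by linarith
    field_simp
    ring
  have hD : (GD ed).eval (xN N) y z = N * Em.eval (xN N) y z * 10000 * (1 + y)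
      * ((N - 2) * Em.eval (xN N) y z * (1 + y)) * ed.eval (xN N) y z := by
    simp only [GD, GF, GD0, eval_mul', eval_add', eval_c, eN, eh, Ex.eval]; push_cast; ring
  have hT0 : GT0.eval (xN N) y z = tb p q * ((N - 2) * Em.eval (xN N) y z * (1 + y)) := by
    simp only [GT0, eval_mul', eval_add', eval_c, eN, eh, Ex.eval]
    push_cast
    linear_combination (-Em.eval (xN N) y z) * hdy
  have hD0 : 0 < (GD ed).eval (xN N) y z := by
    rw [hD]; have := he y; have : 0 < N - 2 := by linarith
    have : 0 < N := by linarith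
    positivity
  have hTe : (GT ed).eval (xN N) y z = tb p q * (GD ed).eval (xN N) y z := by
    rw [hD]
    simp only [GT, GF, eval_mul', eval_add', eval_c, hT0, eN, Ex.eval]; push_cast; ring
  have hR : (GR * en).eval (xN N) y z = (s - si N p q) * (GD ed).eval (xN N) y z := by
    rw [hD]
    simp only [GR, eval_mul', eval_add', eval_c, hT0, hen, hrb, Ex.eval]
    have : 8724 + 8283 * y ≠ 0 := by linarith
    have : tb p q ≠ 0 := by linarith
    have : N ≠ 0 := by linarith
    push_cast
    field_simp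
  refine ⟨y, hy0, hD0, he y, ?_, hTe, hR, hen y, ?_, ?_⟩
  · rw [GS, eval_add', hR]
    have : (GSi ed).eval (xN N) y z = si N p q * (GD ed).eval (xN N) y z := by
      rw [hD, hsi]
      simp only [GSi, eval_mul', eval_add', eval_c, hT0, eh, Ex.eval]
      have : N ≠ 0 := by linarith
      push_cast
      field_simp
    rw [this]; ring
  · have hc : c1 N p q = -N / (2 * (N - 2)) - 7 / 50 * (si N p q - 1) := by
      rw [c1]
      split_ifs with h'
      · have e : (N - 2) * tb p q = N := le_antisymm h' h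
        rw [show si N p q = 1 by rw [hsi, e]; exact div_self (by linarith)]
        have : N - 2 ≠ 0 := by linarith
        have : 1 + tb p q ≠ 0 := by linarith
        have : tb p q ≠ 0 := by linarith
        rw [show p + q + 2 = (p + 1) + (q + 1) by ring, R.hp1, R.hq1]
        field_simp
        linear_combination (-50) * e
      · rw [si, sInf', show (N - 2) * (p + 1) / (N * (q + 1)) = sEq N p q by rw [sEq, div_mul_div_comm]]
    rw [hc, hsi]
    simp only [GCn, GCd, eval_sub', eval_mul', eval_add', eval_c, eN, eh, hTe, Ex.eval]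
    have : N - 2 ≠ 0 := by linarith
    have : N ≠ 0 := by linarith
    push_cast
    field_simp
    ring
  · simp only [GCd, eval_mul', eval_c, eN, eh]
    have : 0 < N - 2 := by linarith
    have : 0 < N := by linarith
    push_cast
    positivity

lemma Geo.evalHyp {en ed D S T Rr Cn Cd : Ex} (g : Geo N p q s y z en ed D S T Rr Cn Cd)
    (R : Range N p q) (hs : 0 < s) (hsT : s < tb p q) :
    EvalHyp (par N p q) s (tb p q) (mW p q) (xN N) y z En Em Eh D S T Cn Cd (wN D T) (wD D T) := by
  obtain ⟨eN, hm, eh⟩ := R.En_eval (y := y) (z := z)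
  have : 10 + 7 * (tb p q - 1) ≠ 0 := by linarith [R.one_lt]
  refine ⟨show 4 < N by linarith [R.hN], hs, hsT, R.hp1, R.hq1, rfl, rfl, hm.ne', eN, eh,
    g.D_pos.ne', g.S_eq, g.T_eq, g.C_eq, ?_⟩
  simp only [wN, wD, mW, eval_mul', eval_add', eval_sub', eval_c, g.T_eq]
  push_cast
  rw [show 10 * D.eval (xN N) y z + 7 * (tb p q * D.eval (xN N) y z - D.eval (xN N) y z)
    = (10 + 7 * (tb p q - 1)) * D.eval (xN N) y z by ring, ← mul_assoc, div_mul_cancel₀ _ this]
  ring

/-- Positivity of a template at a point of the box. -/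
lemma Geo.pe_pos {en ed D S T Rr Cn Cd mo : Ex} (g : Geo N p q s y z en ed D S T Rr Cn Cd)
    (R : Range N p q) {l : List Ex}
    (hc : checkAll mo (bernL (c 0) (topN D T Rr en ed) (topD ed) l) = true) (hy : 0 ≤ y)
    (hz : 0 ≤ z) (hmo : 0 < mo.eval (xN N) y z) (hW : 0 ≤ W) (hW1 : W < top N p q s) :
    0 < pe (xN N) y z l (W * D.eval (xN N) y z ^ 2) := by
  obtain ⟨eN, hm, eh⟩ := R.En_eval (y := y) (z := z)
  have hh : 0 < N - 2 := by linarith [R.hN]
  have htd : 0 < (topD ed).eval (xN N) y z := by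
    simp only [topD, eval_mul', eval_c, eh]
    have := g.ed_pos
    push_cast
    positivity
  have etn : (topN D T Rr en ed).eval (xN N) y z
      = top N p q s * D.eval (xN N) y z ^ 2 * (topD ed).eval (xN N) y z := by
    have := g.R_eq
    rw [eval_mul'] at this
    simp only [topN, topD, eval_mul', eval_sub', eval_add', eval_c, eh, this, g.T_eq, top, aA]
    rw [g.e_eq]
    push_cast
    field_simp
    ring
  set v := W * D.eval (xN N) y z ^ 2
  have hv : v * (topD ed).eval (xN N) y z < (topN D T Rr en ed).eval (xN N) y z := by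
    rw [etn]
    exact mul_lt_mul_of_pos_right (mul_lt_mul_of_pos_right hW1 (pow_pos g.D_pos 2)) htd
  refine pos_of_checkAll (w := v * (topD ed).eval (xN N) y z /
    ((topN D T Rr en ed).eval (xN N) y z - v * (topD ed).eval (xN N) y z)) hc R.xN_pos.le hy hz
    (div_nonneg (mul_nonneg (mul_nonneg hW (sq_nonneg _)) htd.le) (by linarith)) hmo htd ?_
  have : (topN D T Rr en ed).eval (xN N) y z - v * (topD ed).eval (xN N) y z ≠ 0 := by linarith
  rw [eval_c]
  push_cast
  field_simp
  ring

/-- What strictness before `τ₀` needs. -/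
structure BoxPre (C : CPar) (s W : ℝ) : Prop where
  h2 : 0 < C.P2 s W
  h3 : C.P1 s W ^ 2 < 4 * C.P2 s W * C.P0 s W
  h0 : 0 < C.rho s W 0
  hs : 0 < C.rho s W (s / CPar.V s W)

section core

variable {C : CPar} {T w : ℝ} {Nn m H D S T' Cn Cd wn wd : Ex}
  (h : EvalHyp C s T w x y z Nn m H D S T' Cn Cd wn wd)
include h

/-- The positive units of the templates. -/
lemma units (hD : 0 < D.eval x y z) (hm : 0 < m.eval x y z) (hCd : 0 < Cd.eval x y z)
    (hwd : 0 < wd.eval x y z) :
    0 < Nn.eval x y z ∧ 0 < H.eval x y z ∧ 0 < S.eval x y z + T'.eval x y z ∧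
      0 < T'.eval x y z ∧ 0 < (dA H S T' wd).eval x y z := by
  have hN := h.hN
  have h1 := h.hs
  have h2 := h.hsT
  refine ⟨?_, ?_, ?_, ?_, ?_⟩
  · rw [h.hNn]; exact mul_pos (by linarith) hm
  · rw [h.hH]; exact mul_pos (by linarith) hm
  · rw [h.hS, h.hT', ← add_mul]; exact mul_pos (by linarith) hD
  · rw [h.hT']; exact mul_pos (by linarith) hD
  · rw [h.dA_eval]
    have : 0 < T ^ 2 - s ^ 2 := by nlinarith
    have : 0 < C.N - 2 := by linarith
    positivity

lemma boxPre_of_pos (hD : 0 < D.eval x y z) (hm : 0 < m.eval x y z) (hCd : 0 < Cd.eval x y z)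
    (hwd : 0 < wd.eval x y z) (hV : 0 < CPar.V s W)
    (p2 : 0 < pe x y z (nP2 Nn m H D S T' Cn Cd wn wd) (W * D.eval x y z ^ 2))
    (pd : 0 < pe x y z (nDisc Nn m H D S T' Cn Cd wn wd) (W * D.eval x y z ^ 2))
    (p0 : 0 < pe x y z (nR0 Nn m H D S T' Cn Cd wn wd) (W * D.eval x y z ^ 2))
    (pp : 0 < pe x y z (nRZ Nn m H D S T' Cn Cd wn wd S) (W * D.eval x y z ^ 2)) :
    BoxPre C s W := by
  obtain ⟨uN, uH, uST, uT, uA⟩ := units h hD hm hCd hwd
  rw [h.P2_eval] at p2
  rw [h.disc_eval] at pd
  rw [h.nR0_eval] at p0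
  rw [h.nRZ_eval h.hS hV.ne'] at pp
  have hTs : 0 < T - s := sub_pos.2 h.hsT
  refine ⟨pos_of_mul_pos_left p2 (by positivity),
    sub_pos.1 (pos_of_mul_pos_left pd (by positivity)),
    pos_of_mul_pos_left (pos_of_mul_pos_left p0 (by positivity)) hTs.le, ?_⟩
  have := pos_of_mul_pos_left (pos_of_mul_pos_left pp (by positivity)) hTs.le
  exact pos_of_mul_pos_right this hV.le

end core

lemma wD_pos {D T : Ex} (R : Range N p q) (hD : 0 < D.eval x y z)
    (hT : T.eval x y z = tb p q * D.eval x y z) : 0 < (wD D T).eval x y z := by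
  simp only [wD, eval_add', eval_mul', eval_sub', eval_c, hT]
  push_cast
  nlinarith [mul_pos (sub_pos.2 R.one_lt) hD]

lemma rb_pos (R : Range N p q) : 0 < rb N p q := by
  have hT := R.one_lt
  have := R.hN
  rw [rb]
  split_ifs with h
  · linarith
  · push Not at h
    have : ((N - 2) * tb p q - N) / (2 * (N - 2) - N) < 1 := by
      rw [div_lt_one (by linarith [R.hN])]
      have := mul_lt_mul_of_pos_left R.lt_two (show 0 < N - 2 by linarith)
      linarith
    exact mul_pos (div_pos (by linarith) (by linarith)) (by linarith)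

lemma si_add_rb_lt (R : Range N p q) : si N p q + rb N p q < tb p q := by
  have hT := R.one_lt
  have := R.hN
  have := R.lt_two
  rw [si, R.sEq_eq, rb]
  split_ifs with h
  · rw [max_eq_left (by rw [div_le_one (by linarith)]; linarith)]; linarith
  · push Not at h
    rw [max_eq_right (by rw [le_div_iff₀ (by linarith)]; linarith)]
    have hu : 0 ≤ ((N - 2) * tb p q - N) / (2 * (N - 2) - N) :=
      div_nonneg (by linarith) (by linarith)
    have : tb p q = (N - 2) * tb p q / N + 2 * tb p q / N := by field_simp; ring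
    conv_rhs => rw [this]
    have h0 : 0 < 2 * tb p q / N := div_pos (by linarith) (by linarith)
    nlinarith [mul_nonneg h0.le hu]

/-- **The box before `τ₀`.** -/
theorem box_pre (R : Range N p q) (h0 : si N p q < s) (h1 : s < si N p q + rb N p q)
    (hW : 0 < W) (hW1 : W < top N p q s) : BoxPre (par N p q) s W := by
  have hr := rb_pos R
  have hs1 : 1 < s := lt_of_le_of_lt (le_max_left _ _) h0
  have hsT : s < tb p q := h1.trans (si_add_rb_lt R)
  have hV : 0 < CPar.V s W := by
    rw [CPar.V]; nlinarith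
  set e := (s - si N p q) / rb N p q with he
  have he0 : 0 < e := div_pos (by linarith) hr
  have he1 : e < 1 := (div_lt_one hr).2 (by linarith)
  set z := e / (1 - e) with hz
  have hz0 : 0 < z := div_pos he0 (by linarith)
  have hze : z = e * (1 + z) := by
    have : 1 - e ≠ 0 := by linarith
    rw [hz]; field_simp; ring
  rcases lt_or_ge ((N - 2) * tb p q) N with hc | hc
  · obtain ⟨y, hy, g⟩ := geoL (z := z) R hc (en := Ex.z) (ed := Le)
      (fun y => by simp [Le, Ex.eval]; linarith) (fun y => by simpa [Le, Ex.eval] using hze)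
    refine boxPre_of_pos (g.evalHyp R (by linarith) hsT) g.D_pos (R.En_eval).2.1 g.Cd_pos
      (wD_pos R g.D_pos g.T_eq) hV
      (g.pe_pos R checkL_nP2 hy.le hz0.le ?_ hW.le hW1)
      (g.pe_pos R checkL_nDisc hy.le hz0.le ?_ hW.le hW1)
      (g.pe_pos R checkL_nR0 hy.le hz0.le ?_ hW.le hW1)
      (g.pe_pos R checkL_nRP hy.le hz0.le ?_ hW.le hW1) <;>
      (simp [Ex.eval]; positivity)
  · obtain ⟨y, hy, g⟩ := geoG (z := z) R hc (en := Ex.z) (ed := Ge)
      (fun y => by simp [Ge, Ex.eval]; linarith) (fun y => by simpa [Ge, Ex.eval] using hze)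
    refine boxPre_of_pos (g.evalHyp R (by linarith) hsT) g.D_pos (R.En_eval).2.1 g.Cd_pos
      (wD_pos R g.D_pos g.T_eq) hV
      (g.pe_pos R checkG_nP2 hy hz0.le ?_ hW.le hW1)
      (g.pe_pos R checkG_nDisc hy hz0.le ?_ hW.le hW1)
      (g.pe_pos R checkG_nR0 hy hz0.le ?_ hW.le hW1)
      (g.pe_pos R checkG_nRP hy hz0.le ?_ hW.le hW1) <;>
      (simp [Ex.eval]; try positivity)

/-- The endpoint of `z` after `τ₀`. -/
theorem box_post (R : Range N p q) (h0 : si N p q + 85 / 100 * rb N p q ≤ s)
    (h1 : s < si N p q + rb N p q) (hW : 0 < W) (hW1 : W < top N p q s) :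
    0 < (par N p q).rho s W ((s - tb p q) / CPar.V s W) := by
  have hr := rb_pos R
  have hs0 : si N p q < s := by nlinarith
  have hs1 : 1 < s := lt_of_le_of_lt (le_max_left _ _) hs0
  have hsT : s < tb p q := h1.trans (si_add_rb_lt R)
  have hV : 0 < CPar.V s W := by rw [CPar.V]; nlinarith
  set e := (s - si N p q) / rb N p q with he
  have he0 : 85 / 100 ≤ e := by rw [le_div_iff₀ hr]; linarith
  have he1 : e < 1 := (div_lt_one hr).2 (by linarith)
  set z := (100 * e - 85) / (100 * (1 - e)) with hz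
  have hz0 : 0 ≤ z := div_nonneg (by linarith) (by linarith)
  have hze : 85 + 100 * z = e * (100 * (1 + z)) := by
    have : 1 - e ≠ 0 := by linarith
    rw [hz]; field_simp; ring
  rcases lt_or_ge ((N - 2) * tb p q) N with hc | hc
  · obtain ⟨y, hy, g⟩ := geoL (z := z) R hc (en := Ln') (ed := Le')
      (fun y => by simp [Le', Ex.eval]; linarith)
      (fun y => by simpa [Ln', Le', Ex.eval] using hze)
    have h := g.evalHyp R (by linarith) hsT
    have hm := (R.En_eval (y := y) (z := z)).2.1
    have hwd := wD_pos R g.D_pos g.T_eq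
    obtain ⟨uN, uH, uST, uT, uA⟩ := units h g.D_pos hm g.Cd_pos hwd
    have hp := g.pe_pos R checkL_nRM hy.le hz0 (by simp [Ex.eval]; positivity) hW.le hW1
    rw [h.nRZ_eval (ζ := s - tb p q) (by rw [eval_sub', h.hS, h.hT']; ring) hV.ne'] at hp
    have hCd := g.Cd_pos
    exact pos_of_mul_pos_right (pos_of_mul_pos_left (pos_of_mul_pos_left hp (by
      have := g.D_pos; positivity)) (sub_pos.2 hsT).le) hV.le
  · obtain ⟨y, hy, g⟩ := geoG (z := z) R hc (en := Gn') (ed := Ge')
      (fun y => by simp [Ge', Ex.eval]; linarith)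
      (fun y => by simpa [Gn', Ge', Ex.eval] using hze)
    have h := g.evalHyp R (by linarith) hsT
    have hm := (R.En_eval (y := y) (z := z)).2.1
    have hwd := wD_pos R g.D_pos g.T_eq
    obtain ⟨uN, uH, uST, uT, uA⟩ := units h g.D_pos hm g.Cd_pos hwd
    have hp := g.pe_pos R checkG_nRM hy hz0 (by simp [Ex.eval]) hW.le hW1
    rw [h.nRZ_eval (ζ := s - tb p q) (by rw [eval_sub', h.hS, h.hT']; ring) hV.ne'] at hp
    have hCd := g.Cd_pos
    exact pos_of_mul_pos_right (pos_of_mul_pos_left (pos_of_mul_pos_left hp (by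
      have := g.D_pos; positivity)) (sub_pos.2 hsT).le) hV.le

end Vale.Agent.P100T.Five
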