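import Vale.Agent.P100T.Five.Tpl
import Vale.Agent.P100T.CertFun

/-!
The templates of `Five.Tpl` are the numerators of `P2`, `4 P2 P0 - P1²` and `rho` of a certificate
with `G = 0` and `M = (N-4)/N + (1+w) · 2/((N-2)(p+1))`.
-/

noncomputable section

namespace Vale.Agent.P100T.Five

open PosCheck UpperCert

variable {C : CPar} {s W T w x y z : ℝ} {Nn m H D S T' Cn Cd wn wd : Ex}

/-- The data of one evaluation. -/
structure EvalHyp (C : CPar) (s T w x y z : ℝ) (Nn m H D S T' Cn Cd wn wd : Ex) : Prop where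
  hN : 4 < C.N
  hs : 0 < s
  hsT : s < T
  hp1 : C.p + 1 = C.N * (1 + T) / (C.N - 2)
  hq1 : C.q + 1 = C.N * (1 + T) / ((C.N - 2) * T)
  hG : C.G = 0
  hM : C.M = (C.N - 4) / C.N + (1 + w) * (2 / ((C.N - 2) * (C.p + 1)))
  hm : m.eval x y z ≠ 0
  hNn : Nn.eval x y z = C.N * m.eval x y z
  hH : H.eval x y z = (C.N - 2) * m.eval x y z
  hD : D.eval x y z ≠ 0
  hS : S.eval x y z = s * D.eval x y z
  hT' : T'.eval x y z = T * D.eval x y z
  hC : Cn.eval x y z = C.c1 * Cd.eval x y z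
  hw : wn.eval x y z = w * wd.eval x y z

namespace EvalHyp

variable (h : EvalHyp C s T w x y z Nn m H D S T' Cn Cd wn wd)
include h

lemma ne : C.N - 2 ≠ 0 ∧ C.N ≠ 0 ∧ T ≠ 0 ∧ 1 + T ≠ 0 ∧ s + T ≠ 0 ∧ T - s ≠ 0 ∧ C.q + 1 ≠ 0 ∧
    T ^ 2 - s ^ 2 ≠ 0 := by
  have h1 := h.hN; have h2 := h.hs; have h3 := h.hsT
  refine ⟨by linarith, by linarith, by linarith, by linarith, by linarith, by linarith, ?_, ?_⟩
  · rw [h.hq1]
    exact (div_pos (mul_pos (by linarith) (by linarith))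
      (mul_pos (by linarith) (by linarith))).ne'
  · nlinarith

lemma hpq : C.p + 1 = T * (C.q + 1) := by
  obtain ⟨n1, n2, n3, -, -, -, -, -⟩ := h.ne
  rw [h.hp1, h.hq1]; field_simp

lemma L_eq : C.L s = (C.q + 1) * (T - s) := by rw [CPar.L, h.hpq]; ring

lemma K_eq : C.K s = (C.q + 1) * (s + T) := by rw [CPar.K, h.hpq]; ring

lemma nu_eq : C.nu s = (C.N - 1) / (C.N * (s + T)) := by
  obtain ⟨n1, n2, n3, n4, n5, -, n7, -⟩ := h.ne
  rw [CPar.nu, CPar.mu, h.K_eq]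
  have : C.p + 1 ≠ 0 := by rw [h.hpq]; exact mul_ne_zero n3 n7
  field_simp

lemma mu_eq : C.mu s = (C.p + 1) * ((C.N - 1) / (C.N * (s + T))) := by
  obtain ⟨n1, n2, n3, n4, n5, -, n7, -⟩ := h.ne
  rw [CPar.mu, h.K_eq]
  field_simp

lemma l_eq : C.l s W = ((C.p + 1) * s - CPar.V s W) / (s + T) := by
  obtain ⟨n1, n2, n3, n4, n5, -, n7, -⟩ := h.ne
  rw [CPar.l, h.K_eq]
  field_simp

lemma a_eq : C.a s W = (C.N - 4) / (C.N - 2)
    - (2 * W + C.N / (C.N - 2) * (s - 1) * (s - (C.N - 2) * T / C.N)) / (T ^ 2 - s ^ 2)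
    + 2 * w / ((C.N - 2) * (T - s)) := by
  obtain ⟨n1, n2, n3, n4, n5, n6, n7, n8⟩ := h.ne
  rw [CPar.a, h.mu_eq, h.l_eq, h.L_eq, h.hM, CPar.V, h.hp1, h.hq1]
  field_simp
  ring

lemma ce_eq : C.ce s W
    = -((C.N - 1) / (C.N * (s + T))) * ((C.p + 1) * T + CPar.V s W) / (s + T) := by
  obtain ⟨n1, n2, n3, n4, n5, n6, n7, n8⟩ := h.ne
  have : C.p + 1 ≠ 0 := by rw [h.hpq]; exact mul_ne_zero n3 n7
  rw [CPar.ce, h.mu_eq, h.l_eq]
  field_simp
  ring

lemma c_eq : C.c s = C.c1 := by simp [CPar.c, h.hG]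

lemma c'_eq : C.c' s W = 0 := by simp [CPar.c', h.hG]

lemma dA_eval : (dA H S T' wd).eval x y z
    = (C.N - 2) * m.eval x y z * ((T ^ 2 - s ^ 2) * D.eval x y z ^ 2) * wd.eval x y z := by
  simp only [dA, dD, eval_sub', eval_mul', h.hH, h.hS, h.hT']
  ring

lemma nA_eval : pe x y z (nA Nn m H D S T' wn wd) (W * D.eval x y z ^ 2)
    = C.a s W * (dA H S T' wd).eval x y z := by
  obtain ⟨n1, n2, n3, n4, n5, n6, n7, n8⟩ := h.ne
  rw [h.dA_eval, h.a_eq]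
  simp only [nA, dD, pe_cons, pe_nil, eval_add', eval_sub', eval_mul', eval_c, h.hNn, h.hH, h.hS,
    h.hT', h.hw]
  push_cast
  field_simp
  ring

lemma vV_eval : pe x y z (vV D S) (W * D.eval x y z ^ 2) = CPar.V s W * D.eval x y z ^ 2 := by
  simp only [vV, CPar.V, pe_cons, pe_nil, eval_sub', eval_mul', eval_c, h.hS]
  push_cast
  ring

lemma nE_eval : pe x y z (nE Nn m H D S T') (W * D.eval x y z ^ 2)
    = -C.ce s W * (Nn.eval x y z * H.eval x y z * (S.eval x y z + T'.eval x y z) ^ 2) := by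
  obtain ⟨n1, n2, n3, n4, n5, n6, n7, n8⟩ := h.ne
  rw [h.ce_eq, h.hp1]
  simp only [nE, CPar.V, pe_cons, pe_nil, eval_add', eval_sub', eval_mul', h.hNn, h.hH, h.hS, h.hT']
  field_simp
  ring

lemma nd_eval : pe x y z (nd Nn m H D S T' Cn Cd) (W * D.eval x y z ^ 2)
    = (C.ce s W - C.c s)
      * (Nn.eval x y z * H.eval x y z * (S.eval x y z + T'.eval x y z) ^ 2 * Cd.eval x y z) := by
  rw [h.c_eq]
  simp only [nd, pe_padd, pe_pneg, pe_psc, h.nE_eval, pe_cons, pe_nil, eval_add', eval_sub',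
    eval_mul', eval_c, h.hC]
  push_cast
  ring

lemma nA2_eval : pe x y z (nA2 Nn m H D S T' Cn Cd wn wd) (W * D.eval x y z ^ 2)
    = (C.a s W + 2 * C.c s) * ((dA H S T' wd).eval x y z * Cd.eval x y z) := by
  rw [h.c_eq]
  simp only [nA2, pe_padd, pe_psc, h.nA_eval, pe_cons, pe_nil, eval_mul', eval_c, h.hC]
  push_cast
  ring

lemma P2_eval : pe x y z (nP2 Nn m H D S T' Cn Cd wn wd) (W * D.eval x y z ^ 2)
    = C.P2 s W * (4 * Nn.eval x y z * (dA H S T' wd).eval x y z ^ 2 * Cd.eval x y z ^ 2) := by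
  obtain ⟨n1, n2, n3, n4, n5, n6, n7, n8⟩ := h.ne
  rw [CPar.P2, h.c'_eq]
  simp only [nP2, pe_padd, pe_pneg, pe_psc, pe_pmul, h.nA2_eval, h.nA_eval, pe_cons, pe_nil,
    eval_sub', eval_mul', eval_c, h.hC, h.hNn, h.c_eq]
  push_cast
  field_simp
  ring

lemma P1_eval : pe x y z (nP1 Nn m H D S T' Cn Cd wn wd) (W * D.eval x y z ^ 2)
    = C.P1 s W * (Nn.eval x y z * (S.eval x y z + T'.eval x y z) * D.eval x y z
      * (dA H S T' wd).eval x y z * Cd.eval x y z) := by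
  obtain ⟨n1, n2, n3, n4, n5, n6, n7, n8⟩ := h.ne
  have := h.hm
  rw [CPar.P1, h.c'_eq, h.nu_eq, h.mu_eq, h.K_eq, h.L_eq,
    show (3 * (C.p + 1) - (C.q + 1) * s) = (C.q + 1) * (3 * T - s) by rw [h.hpq]; ring]
  simp only [nP1, pe_padd, pe_pneg, pe_psc, pe_pmul, h.nA2_eval, h.vV_eval, pe_cons, pe_nil,
    eval_add', eval_sub', eval_mul', eval_c, h.hC, h.hNn, h.hH, h.hS, h.hT', h.dA_eval, h.c_eq,
    h.hp1]
  push_cast
  rw [h.hq1]
  field_simp
  ring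

lemma disc_eval : pe x y z (nDisc Nn m H D S T' Cn Cd wn wd) (W * D.eval x y z ^ 2)
    = (4 * C.P2 s W * C.P0 s W - C.P1 s W ^ 2) * (H.eval x y z * Cd.eval x y z ^ 3
      * (Nn.eval x y z * (dA H S T' wd).eval x y z * D.eval x y z
        * (S.eval x y z + T'.eval x y z)) ^ 2) := by
  rw [CPar.P0]
  simp only [nDisc, pe_padd, pe_pneg, pe_psc, pe_pmul, h.P2_eval, h.P1_eval, h.vV_eval, h.nd_eval,
    eval_mul']
  ring

lemma nl_eval : pe x y z (nl Nn H D S T') (W * D.eval x y z ^ 2)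
    = C.l s W * (H.eval x y z * D.eval x y z * (S.eval x y z + T'.eval x y z)) := by
  obtain ⟨n1, n2, n3, n4, n5, n6, n7, n8⟩ := h.ne
  rw [h.l_eq, h.hp1]
  simp only [nl, CPar.V, pe_cons, pe_nil, eval_add', eval_sub', eval_mul', eval_c, h.hNn, h.hH, h.hS,
    h.hT']
  push_cast
  field_simp
  ring

/-- The constant term of `rho (T - σ)` in `z`. -/
lemma rho_split (Z : ℝ) : C.rho s W Z * (T - s)
    = (C.nu s * ((C.a s W - 1 + C.q) * (T - s) - (C.N + 2) * C.l s W / C.N + C.q * s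
        + W / (s + T)) + 2 / C.N * (C.ce s W - C.c s))
      + Z * ((C.ce s W - C.c s) * ((C.a s W - 1 + C.q) * (T - s) + 1 + C.q * s
          - 2 * (C.N - 1) * C.l s W / C.N)
        - C.nu s * C.E0 s W * C.l s W + (C.nu s * C.l s W - C.mu s) * (W / (s + T))) := by
  obtain ⟨n1, n2, n3, n4, n5, n6, n7, n8⟩ := h.ne
  rw [CPar.rho, CPar.kz, CPar.Kp0, h.c'_eq, h.L_eq, h.K_eq, CPar.E0]
  field_simp
  ring

lemma nR0_eval : pe x y z (nR0 Nn m H D S T' Cn Cd wn wd) (W * D.eval x y z ^ 2)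
    = C.rho s W 0 * (T - s) * (Nn.eval x y z ^ 2 * H.eval x y z * wd.eval x y z
      * (S.eval x y z + T'.eval x y z) ^ 2 * T'.eval x y z * Cd.eval x y z) := by
  obtain ⟨n1, n2, n3, n4, n5, n6, n7, n8⟩ := h.ne
  have := h.hm
  have := h.hD
  rw [h.rho_split, zero_mul, add_zero]
  simp only [nR0, nAq, dD, pe_padd, pe_pneg, pe_psc, h.nA_eval, h.nl_eval, h.nd_eval, pe_cons,
    pe_nil, eval_add', eval_sub', eval_mul', eval_c, h.hNn, h.hH, h.hS, h.hT', h.dA_eval,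
    h.nu_eq]
  generalize C.a s W = a
  generalize C.l s W = l
  generalize C.ce s W - C.c s = d
  rw [show C.q = C.N * (1 + T) / ((C.N - 2) * T) - 1 by linarith [h.hq1]]
  push_cast
  field_simp
  ring

lemma nR1_eval : pe x y z (nR1 Nn m H D S T' Cn Cd wn wd) (W * D.eval x y z ^ 2)
    = ((C.ce s W - C.c s) * ((C.a s W - 1 + C.q) * (T - s) + 1 + C.q * s
          - 2 * (C.N - 1) * C.l s W / C.N)
        - C.nu s * C.E0 s W * C.l s W + (C.nu s * C.l s W - C.mu s) * (W / (s + T)))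
      * (Nn.eval x y z ^ 2 * H.eval x y z ^ 2 * (S.eval x y z + T'.eval x y z) ^ 3
        * Cd.eval x y z * wd.eval x y z * T'.eval x y z * D.eval x y z) := by
  obtain ⟨n1, n2, n3, n4, n5, n6, n7, n8⟩ := h.ne
  have := h.hm
  have := h.hD
  rw [show C.nu s * C.l s W - C.mu s = C.ce s W by
    rw [h.nu_eq, h.mu_eq, h.ce_eq, h.l_eq]; field_simp; ring, CPar.E0]
  simp only [nR1, nAq, dD, pe_padd, pe_pneg, pe_psc, pe_pmul, h.nA_eval, h.nl_eval, h.nd_eval,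
    h.nE_eval, pe_cons, pe_nil, eval_add', eval_sub', eval_mul', eval_c, h.hNn, h.hH, h.hS, h.hT',
    h.dA_eval, h.nu_eq]
  generalize C.a s W = a
  generalize C.l s W = l
  generalize C.ce s W - C.c s = d
  generalize C.ce s W = e
  rw [show C.q = C.N * (1 + T) / ((C.N - 2) * T) - 1 by linarith [h.hq1]]
  push_cast
  field_simp
  ring

lemma nRZ_eval {Z : Ex} {ζ : ℝ} (hZ : Z.eval x y z = ζ * D.eval x y z) (hV : CPar.V s W ≠ 0) :
    pe x y z (nRZ Nn m H D S T' Cn Cd wn wd Z) (W * D.eval x y z ^ 2)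
      = CPar.V s W * C.rho s W (ζ / CPar.V s W) * (T - s)
        * (Nn.eval x y z ^ 2 * H.eval x y z ^ 2 * (S.eval x y z + T'.eval x y z) ^ 3
          * Cd.eval x y z * wd.eval x y z * T'.eval x y z * D.eval x y z ^ 2) := by
  have e0 := h.nR0_eval (W := W)
  rw [h.rho_split, zero_mul, add_zero] at e0
  rw [mul_assoc (CPar.V s W), h.rho_split]
  simp only [nRZ, pe_padd, pe_psc, pe_pmul, h.vV_eval, e0, h.nR1_eval, eval_add', eval_mul', hZ]
  generalize (C.ce s W - C.c s) * _ - _ + _ = B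
  generalize C.nu s * _ + _ = A
  field_simp

end EvalHyp

end Vale.Agent.P100T.Five
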