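import Vale.Agent.P100T.Five.Tpl

/-!
Kernel check that `σ∞ + rb` is right of the zero of `wm`.
-/

namespace Vale.Agent.P100T.Five

open PosCheck UpperCert

/-- The numerator of `wm`. -/
def nWm (D S T : Ex) : Ex := S * (En * En * (D + T) * (T - S) - c 2 * Em * (S - D) * Eh * T)

theorem checkL_R : check (c 0 - nWm (LD (c 1)) (LS (c 1) (c 1)) (LT (c 1)) - Ex.y) = true := by
  decide +kernel

theorem checkG_R : check (c 0 - nWm (GD (c 1)) (GS (c 1) (c 1)) (GT (c 1)) - c 1) = true := by
  decide +kernel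

end Vale.Agent.P100T.Five
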