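import Vale.Agent.P100T.Five.Tpl

/-!
Certificates for the lower line and the extension in dimension five:
`σ = S/D`, `T = T'/D`, `W = W'/D²`, over the base `T = T₀/D₀`.
-/

namespace Vale.Agent.P100T.Five

open PosCheck UpperCert

/-- `(hev tn td l) td = td^length · l(tn/td)`. -/
def hev (tn td : Ex) : List Ex → Ex
  | [] => c 0
  | a :: l => a * Ex.pow td l.length + tn * hev tn td l

variable (Nn m H D S T : Ex)

/-- `L dW/dτ` on the slope bound, times `H T' S (S+T') (Nn+4m) D³`. -/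
def wdn : List Ex :=
  let L : List Ex := [Nn * (D + T) * S - H * (S * (S - D)), c 0 - H]
  let W : List Ex := [c 0, c 1]
  let a := padd [(Nn * (D + T) + H * (D - c 2 * S)) * (S + T)] (pneg L)
  let Q1 := padd [(Nn * (D + T) - H * T) * S * (S + T)] (psc (c 0 - T) L)
  padd (padd (psc (T * S * (Nn + c 4 * m)) (pmul a W))
      (psc S (pmul Q1 (padd L [c 0 - Nn * D * (S + T)]))))
    (psc (c 0 - (Nn + c 2 * m) * T * (S + T)) (pmul L W))

variable (D0 T0 : Ex)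

def Es : Ex := En * En * (D0 + T0)
/-- `σ₂ = SA/(D₀ SB)`. -/
def SB : Ex := Es D0 T0 + c 2 * Em * Eh * T0
def SA : Ex := T0 * (Es D0 T0 + c 2 * Em * Eh * D0)
/-- `T - 1` times `D₀`. -/
def d0 : Ex := T0 - D0
def nn : Ex := c 15 * Em - c 2 * En
def kA : Ex := c 655 * D0 + c 1170 * d0 D0 T0
def cA : Ex := c 576 * D0 + c 448 * d0 D0 T0
def bA : Ex := c 634 * D0 + c 484 * d0 D0 T0
def KN : Ex := Es D0 T0 + c 2 * Em * Eh * D0
def kk : Ex := nn * kA D0 T0 * Eh * (En + c 2 * Em)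
def cc : Ex := nn * cA D0 T0 * Eh * (En + c 2 * Em)
def KK : Ex := c 50000 * Em * KN D0 T0

/-- The lower line. -/
def lineE : Ex := kA D0 T0 * (kk D0 T0 + KK D0 T0) * (c 1 + Ex.z)
def lineD : Ex := D0 * SB D0 T0 * lineE D0 T0
def lineT : Ex := T0 * SB D0 T0 * lineE D0 T0
def lineS : Ex :=
  SA D0 T0 * lineE D0 T0
    - SB D0 T0 * d0 D0 T0 * cA D0 T0 * (kk D0 T0 * (c 1 + Ex.z) + KK D0 T0 * Ex.z)
def lineTn : Ex := d0 D0 T0 * nn * cA D0 T0 * KN D0 T0 * lineD D0 T0 * lineD D0 T0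
def lineTd : Ex := D0 * D0 * (kk D0 T0 + KK D0 T0) * (c 1 + Ex.z)
def lineL : List Ex :=
  padd (psc (c 50000 * Em * D0) (wdn En Em Eh (lineD D0 T0) (lineS D0 T0) (lineT D0 T0)))
    [c 0, c 0 - nn * kA D0 T0 * Eh * lineT D0 T0 * lineS D0 T0
      * (lineS D0 T0 + lineT D0 T0) * (En + c 4 * Em) * lineD D0 T0]
def lineP : Ex := hev (lineTn D0 T0) (lineTd D0 T0) (lineL D0 T0)

/-- The slope bound at a constant `W ∈ [bF, 0.34 A r̄]`, `σ ∈ [σ₂ - (T-1)/10, σ₂]`. -/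
def udE : Ex := c 10 * (c 1 + Ex.z)
def udD : Ex := D0 * SB D0 T0 * udE
def udT : Ex := T0 * SB D0 T0 * udE
def udS : Ex := SA D0 T0 * udE - SB D0 T0 * d0 D0 T0 * Ex.z
variable (f R0 : Ex)
def udTd : Ex := c 50000 * Em * D0 * D0 * c 10 * Eh * f * c 100
def udLo : Ex :=
  nn * bA D0 T0 * d0 D0 T0 * (c 10 * Eh * f * c 100) * udD D0 T0 * udD D0 T0
def udHi : Ex :=
  c 50000 * Em * c 34 * (c 20 * Em * D0 + Eh * d0 D0 T0) * R0 * udD D0 T0 * udD D0 T0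
def udL : List Ex :=
  bernL (udLo D0 T0 f) (udHi D0 T0 R0) (udTd D0 f)
    (pneg (wdn En Em Eh (udD D0 T0) (udS D0 T0) (udT D0 T0)))

/-- `log` bound with `W ≤ 1.0002 bF`. -/
def gY : Ex := kk D0 T0 + KK D0 T0
def gD : Ex := D0 * SB D0 T0 * (c 10 * (c 1 + Ex.z) * gY D0 T0)
def gT : Ex := T0 * SB D0 T0 * (c 10 * (c 1 + Ex.z) * gY D0 T0)
def gV : Ex := SB D0 T0 * d0 D0 T0 * (c 10 * cc D0 T0 + gY D0 T0 * Ex.z)
def gS2 : Ex := SA D0 T0 * (c 10 * (c 1 + Ex.z) * gY D0 T0)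
def gS : Ex := gS2 D0 T0 - gV D0 T0
def gP : Ex :=
  En * (gD D0 T0 + gT D0 T0) * gV D0 T0 * (c 2 * gT D0 T0 - gS D0 T0 - gS2 D0 T0) * gS D0 T0
      * (c 2 * gT D0 T0 + gS D0 T0) * c 50000 * Em * D0 * D0 * c 5000
    - nn * bA D0 T0 * d0 D0 T0 * c 5001 * Eh * gT D0 T0 * (gT D0 T0 - gS D0 T0)
      * (gT D0 T0 + c 5 * gS D0 T0) * gD D0 T0 * gD D0 T0

/-- `log` bound with `W ≤ 1.0002 wm σ₀`. -/
def fP (D T S ed : Ex) : Ex :=
  let TB := T * SB D0 T0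
  let SS := S * SB D0 T0
  let S2 := SA D0 T0 * f * ed
  En * (D + T) * (En + c 2 * Em) * (c 2 * TB - SS - S2) * (c 2 * TB + SS) * c 5000
    - c 5001 * (En * En * (D + T) + c 2 * Em * Eh * T) * (TB - SS) * (TB + c 5 * SS)

/-- `σ∞ + r̄ - σ₂`, times `f D₀ SB`. -/
def rgP (Si0 : Ex) : Ex := (Si0 + R0) * SB D0 T0 - SA D0 T0 * f

/-- `σ₂ - σ∞ - cL/kL`, times `f D₀ SB kk`. -/
def lsP (Si0 : Ex) : Ex :=
  kk D0 T0 * (SA D0 T0 * f - Si0 * SB D0 T0) - cc D0 T0 * d0 D0 T0 * SB D0 T0 * f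

/-! ### The base in the two cases; `TD0, TT0` also encode `T < 2 - 1.69 (N-5)`. -/

def Lf : Ex := c 1000
def LSi0 : Ex := LD0 * c 1000
def Gf : Ex := En * c 10000 * (c 1 + Ex.y)
def GSi0 (T0 : Ex) : Ex := Eh * T0 * c 10000 * (c 1 + Ex.y)
def TD0 : Ex := Eh * (c 100 * Em) * (c 1 + Ex.y)
def TT0 : Ex :=
  En * (c 100 * Em) + Eh * (c 200 * Em - c 169 * (En - c 5 * Em)) * Ex.y

def Le0n : Ex := c 9250 * LD0 - c 285 * d0 LD0 LT0
def Len : Ex := Le0n + c 10000 * LD0 * Ex.z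
def Led : Ex := c 10000 * LD0 * (c 1 + Ex.z)
def Gen : Ex := c 905 + c 1000 * Ex.z
def Ged : Ex := c 1000 * (c 1 + Ex.z)

theorem rg_L : check (rgP LD0 LT0 Lf LR LSi0 - Ex.y) = true := by decide +kernel
theorem rg_G : check (rgP GD0 GT0 Gf GR (GSi0 GT0) - c 1) = true := by decide +kernel
theorem ls_L : check (lsP LD0 LT0 Lf LSi0 - Ex.y) = true := by decide +kernel
theorem ls_G : check (lsP TD0 TT0 Gf (GSi0 TT0) - c 1) = true := by decide +kernel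
theorem line_L : check (lineP LD0 LT0) = true := by decide +kernel
theorem line_G : check (lineP TD0 TT0) = true := by decide +kernel
theorem ud_L : (udL LD0 LT0 Lf LR).all check = true := by decide +kernel
theorem ud_G : (udL GD0 GT0 Gf GR).all check = true := by decide +kernel
theorem g_L : check (gP LD0 LT0) = true := by decide +kernel
theorem g_G : check (gP TD0 TT0) = true := by decide +kernel
theorem f_L : check (fP LD0 LT0 Lf (LD Led) (LT Led) (LS Len Led) Led) = true := by decide +kernel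
theorem f_G : check (fP GD0 GT0 Gf (GD Ged) (GT Ged) (GS Gen Ged) Ged) = true := by decide +kernel

end Vale.Agent.P100T.Five
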