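import Vale.Agent.P100T.Five.LowCert
import Vale.Agent.P100T.Five.Def
import Vale.Agent.P100T.LowerLine

/-!
The certificates of `LowCert` as inequalities between reals.
-/

noncomputable section

namespace Vale.Agent.P100T.Five

open PosCheck UpperCert

lemma hev_eval {tn td : Ex} {x y z w : ℝ} (h : w * td.eval x y z = tn.eval x y z) :
    ∀ l : List Ex, (hev tn td l).eval x y z * td.eval x y z
      = td.eval x y z ^ l.length * pe x y z l w
  | [] => by simp [hev]
  | a :: l => by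
    have := hev_eval h l
    simp only [hev, eval_add', eval_mul', Ex.eval, pe_cons, List.length_cons, pow_succ]
    rw [← h]
    linear_combination (w * td.eval x y z) * this

lemma pe_of_hev {tn td : Ex} {x y z w : ℝ} {l : List Ex} (hc : check (hev tn td l) = true)
    (hx : 0 ≤ x) (hy : 0 ≤ y) (hz : 0 ≤ z) (hd : 0 < td.eval x y z)
    (h : w * td.eval x y z = tn.eval x y z) : 0 ≤ pe x y z l w := by
  refine nonneg_of_mul_nonneg_right ?_ (pow_pos hd l.length)
  rw [← hev_eval h l]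
  exact mul_nonneg (nonneg_of_check hc hx hy hz) hd.le

lemma pe_of_bern {lo hi td : Ex} {l : List Ex} {x y z w v : ℝ}
    (hc : (bernL lo hi td l).all check = true) (hx : 0 ≤ x) (hy : 0 ≤ y) (hz : 0 ≤ z) (hw : 0 ≤ w)
    (hd : 0 < td.eval x y z)
    (hv : v * (td.eval x y z * (1 + w)) = lo.eval x y z + hi.eval x y z * w) :
    0 ≤ pe x y z l v := by
  have hD : 0 < td.eval x y z * (1 + w) := mul_pos hd (by linarith)
  have key := pe_bernL (lo := lo) (hi := hi) hD.ne' l
  rw [← hv, mul_div_cancel_right₀ _ hD.ne'] at key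
  refine nonneg_of_mul_nonneg_right ?_ (pow_pos hD l.length)
  rw [← key]
  exact mul_nonneg hD.le (pe_nonneg hx hy hz hw _ hc)

/-- `wdn` in terms of `linePhi`. -/
lemma wdn_eval {Nn m H D S T : Ex} {x y z N M Dv s t : ℝ} (hN : Nn.eval x y z = N * M)
    (hm : m.eval x y z = M) (hH : H.eval x y z = (N - 2) * M) (hD : D.eval x y z = Dv)
    (hS : S.eval x y z = s * Dv) (hT : T.eval x y z = t * Dv) (hN2 : N - 2 ≠ 0) (ht : t ≠ 0)
    (k w : ℝ) :
    pe x y z (wdn Nn m H D S T) (s * w * Dv ^ 2)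
        - k * ((N - 2) * M * (t * Dv) * (s * Dv) * (s * Dv + t * Dv) * (N * M + 4 * M) * Dv)
          * (s * w * Dv ^ 2)
      = (N - 2) * M ^ 2 * t * s ^ 2 * Dv ^ 6 * linePhi N t k s w := by
  simp only [wdn, pe_padd, pe_psc, pe_pmul, pe_pneg, pe_cons, pe_nil, eval_add', eval_sub',
    eval_mul', eval_c, hN, hm, hH, hD, hS, hT, linePhi]
  push_cast
  field_simp
  ring

/-- `D₀, T₀` evaluate to a base of `T` at `(x, y)`. -/
structure Base (D0 T0 : Ex) (N T x y : ℝ) : Prop where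
  hx : 0 ≤ x
  hy : 0 ≤ y
  hm : 0 < Em.eval x y 0
  eN : ∀ z, En.eval x y z = N * Em.eval x y 0
  em : ∀ z, Em.eval x y z = Em.eval x y 0
  eh : ∀ z, Eh.eval x y z = (N - 2) * Em.eval x y 0
  hD : 0 < D0.eval x y 0
  eD : ∀ z, D0.eval x y z = D0.eval x y 0
  eT : ∀ z, T0.eval x y z = T * D0.eval x y 0

namespace Base

variable {D0 T0 : Ex} {N T x y : ℝ} (b : Base D0 T0 N T x y) (z : ℝ)
include b

lemma eEs : (Es D0 T0).eval x y z
    = N ^ 2 * (1 + T) * (Em.eval x y 0 ^ 2 * D0.eval x y 0) := by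
  simp only [Es, eval_add', eval_mul', b.eN, b.eD, b.eT]; ring

lemma eSB : (SB D0 T0).eval x y z
    = (N ^ 2 * (1 + T) + 2 * (N - 2) * T) * (Em.eval x y 0 ^ 2 * D0.eval x y 0) := by
  simp only [SB, eval_add', eval_mul', eval_c, b.eEs, b.em, b.eh, b.eT]; push_cast; ring

lemma eSA (hD : N ^ 2 * (1 + T) + 2 * (N - 2) * T ≠ 0) : (SA D0 T0).eval x y z
    = lineS2 N T * D0.eval x y 0 * (SB D0 T0).eval x y z := by
  rw [b.eSB]
  simp only [SA, eval_add', eval_mul', eval_c, b.eEs, b.em, b.eh, b.eD, b.eT, lineS2]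
  push_cast
  linear_combination (-(D0.eval x y 0 * (Em.eval x y 0 ^ 2 * D0.eval x y 0)))
    * div_mul_cancel₀ (T * (N ^ 2 * (1 + T) + 2 * (N - 2))) hD

lemma ed0 : (d0 D0 T0).eval x y z = (T - 1) * D0.eval x y 0 := by
  simp only [d0, eval_sub', b.eT, b.eD]; ring

lemma enn : nn.eval x y z = (15 - 2 * N) * Em.eval x y 0 := by
  simp only [nn, eval_sub', eval_mul', eval_c, b.eN, b.em]; push_cast; ring

lemma ekA : (kA D0 T0).eval x y z = (655 + 1170 * (T - 1)) * D0.eval x y 0 := by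
  simp only [kA, eval_add', eval_mul', eval_c, b.ed0, b.eD]; push_cast; ring

lemma ecA : (cA D0 T0).eval x y z = (576 + 448 * (T - 1)) * D0.eval x y 0 := by
  simp only [cA, eval_add', eval_mul', eval_c, b.ed0, b.eD]; push_cast; ring

lemma ebA : (bA D0 T0).eval x y z = (634 + 484 * (T - 1)) * D0.eval x y 0 := by
  simp only [bA, eval_add', eval_mul', eval_c, b.ed0, b.eD]; push_cast; ring

lemma eKN : (KN D0 T0).eval x y z
    = (N ^ 2 * (1 + T) + 2 * (N - 2)) * (Em.eval x y 0 ^ 2 * D0.eval x y 0) := by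
  simp only [KN, eval_add', eval_mul', eval_c, b.eEs, b.em, b.eh, b.eD]; push_cast; ring

lemma ekk : (kk D0 T0).eval x y z
    = (15 - 2 * N) / 5 * (655 + 1170 * (T - 1)) / 10000
      * (50000 * Em.eval x y 0 ^ 3 * D0.eval x y 0 * ((N - 2) * (N + 2))) := by
  simp only [kk, eval_add', eval_mul', eval_c, b.enn, b.ekA, b.eh, b.eN, b.em]; push_cast; ring

lemma ecc : (cc D0 T0).eval x y z
    = (15 - 2 * N) / 5 * (576 + 448 * (T - 1)) / 10000
      * (50000 * Em.eval x y 0 ^ 3 * D0.eval x y 0 * ((N - 2) * (N + 2))) := by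
  simp only [cc, eval_add', eval_mul', eval_c, b.enn, b.ecA, b.eh, b.eN, b.em]; push_cast; ring

lemma eKK (hN : (N - 2) * (N + 2) ≠ 0) : (KK D0 T0).eval x y z
    = (N ^ 2 * (1 + T) + 2 * (N - 2)) / ((N - 2) * (N + 2))
      * (50000 * Em.eval x y 0 ^ 3 * D0.eval x y 0 * ((N - 2) * (N + 2))) := by
  have e : (N ^ 2 * (1 + T) + 2 * (N - 2)) / ((N - 2) * (N + 2)) * ((N - 2) * (N + 2))
      = N ^ 2 * (1 + T) + 2 * (N - 2) := div_mul_cancel₀ _ hN
  simp only [KK, eval_mul', eval_c, b.eKN, b.em]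
  push_cast
  linear_combination (-(50000 * Em.eval x y 0 ^ 3 * D0.eval x y 0)) * e

end Base

section cert

lemma g_alg {N T Y s S2 β M d Dv : ℝ}
    (hβ : β = (15 - 2 * N) / 5 * (634 + 484 * (T - 1)) / 10000 * (T - 1)) :
    N * M * (Dv + T * Dv) * (Y * Dv) * (2 * (T * Dv) - s * Dv - S2 * Dv) * (s * Dv)
          * (2 * (T * Dv) + s * Dv) * 50000 * M * d * d * 5000
        - (15 - 2 * N) * M * ((634 + 484 * (T - 1)) * d) * ((T - 1) * d) * 5001 * ((N - 2) * M)
          * (T * Dv) * (T * Dv - s * Dv) * (T * Dv + 5 * (s * Dv)) * Dv * Dv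
      = 50000 * 5000 * M ^ 2 * d ^ 2 * Dv ^ 5
        * (N * (1 + T) * Y * (2 * T - s - S2) * (s * (2 * T + s))
          - 5001 / 5000 * β * ((N - 2) * T) * ((T - s) * (T + 5 * s))) := by
  subst hβ; ring


variable {D0 T0 : Ex} {N T x y : ℝ}

/-- The slope bound on the lower line. -/
theorem line_phi (hc : check (lineP D0 T0) = true) (b : Base D0 T0 N T x y) (hN : 5 ≤ N)
    (hN' : N ≤ 6) (hT : 1 < T) {k c K s : ℝ}
    (hk : k = (15 - 2 * N) / 5 * (655 + 1170 * (T - 1)) / 10000)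
    (hcl : c = (15 - 2 * N) / 5 * (576 + 448 * (T - 1)) / 10000 * (T - 1))
    (hK : K = (N ^ 2 * (1 + T) + 2 * (N - 2)) / ((N - 2) * (N + 2))) (hs : 0 < s)
    (hlo : c ≤ (k + K) * (lineS2 N T - s)) (hhi : k * (lineS2 N T - s) < c) :
    0 ≤ linePhi N T k s ((k * (s - lineS2 N T) + c) / s) := by
  have hT0 : 0 < T := by linarith
  have hh : 0 < N - 2 := by linarith
  have hN2 : 0 < (N - 2) * (N + 2) := mul_pos hh (by linarith)
  have hnn : 0 < 15 - 2 * N := by linarith
  have hk0 : 0 < k := by rw [hk]; positivity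
  have hK0 : 0 < K := by rw [hK]; positivity
  have hkK : 0 < k + K := by linarith
  have hSB : 0 < N ^ 2 * (1 + T) + 2 * (N - 2) * T := by positivity
  set Y := lineS2 N T - s with hY
  set Z := (Y * (k + K) - c) * k / ((k + K) * (c - k * Y)) with hZd
  have hcY : 0 < c - k * Y := by linarith
  have hZ : 0 ≤ Z := div_nonneg (mul_nonneg (by linarith) hk0.le) (mul_pos hkK hcY).le
  have hzero : (k + K) * (c - k * Y) * Z = (Y * (k + K) - c) * k := by
    rw [hZd, mul_div_cancel₀ _ (mul_pos hkK hcY).ne']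
  have hM := b.hm
  have hD0 := b.hD
  set M := Em.eval x y 0 with hMd
  set d := D0.eval x y 0 with hdd
  set Q := 50000 * M ^ 3 * d * ((N - 2) * (N + 2)) with hQ
  have eK := b.eKK Z hN2.ne'
  have ek := b.ekk Z
  rw [← hk] at ek
  rw [← hK] at eK
  set E := (lineE D0 T0).eval x y Z with hE
  have eE : E = (655 + 1170 * (T - 1)) * d * ((k + K) * Q) * (1 + Z) := by
    simp only [hE, lineE, eval_add', eval_mul', eval_c, b.ekA, ek, eK, Ex.eval]; push_cast; ring
  have hE0 : 0 < E := by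
    rw [eE]
    have : 0 < 655 + 1170 * (T - 1) := by linarith
    positivity
  set SBv := (SB D0 T0).eval x y Z with hSBd
  have hSB0 : 0 < SBv := by rw [hSBd, b.eSB]; positivity
  set Dv := d * SBv * E with hDv
  have hDv0 : 0 < Dv := by positivity
  have eD : (lineD D0 T0).eval x y Z = Dv := by
    simp only [lineD, eval_mul', b.eD]; rfl
  have eT : (lineT D0 T0).eval x y Z = T * Dv := by
    simp only [lineT, eval_mul', b.eT]; rw [hDv]; ring
  have eS : (lineS D0 T0).eval x y Z = s * Dv := by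
    simp only [lineS, eval_add', eval_sub', eval_mul', eval_c, b.eSA Z hSB.ne', b.ed0, b.ecA, ek,
      eK, Ex.eval, ← hE, ← hSBd, ← hdd]
    rw [hDv, eE]
    have hck : c * (655 + 1170 * (T - 1)) = k * ((576 + 448 * (T - 1)) * (T - 1)) := by
      rw [hcl, hk]; ring
    refine mul_left_cancel₀ hk0.ne' ?_
    push_cast
    linear_combination (d ^ 2 * SBv * Q * (k * (1 + Z) + K * Z)) * hck
      - (d ^ 2 * SBv * Q * (655 + 1170 * (T - 1))) * hzero
  set w := (k * (s - lineS2 N T) + c) / s with hw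
  have hsw : s * w = c - k * Y := by rw [hw, mul_div_cancel₀ _ hs.ne', hY]; ring
  have etd : (lineTd D0 T0).eval x y Z = d * d * ((k + K) * Q) * (1 + Z) := by
    simp only [lineTd, eval_add', eval_mul', eval_c, b.eD, ek, eK, Ex.eval]; push_cast; ring
  have htd : 0 < (lineTd D0 T0).eval x y Z := by rw [etd]; positivity
  have hv : s * w * Dv ^ 2 * (lineTd D0 T0).eval x y Z = (lineTn D0 T0).eval x y Z := by
    rw [etd, hsw]
    simp only [lineTn, eval_mul', b.ed0, b.enn, b.ecA, eD, b.eKN]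
    have hKe : K * ((N - 2) * (N + 2)) = N ^ 2 * (1 + T) + 2 * (N - 2) := by
      rw [hK, div_mul_cancel₀ _ hN2.ne']
    have h1 : (c - k * Y) * (k + K) * (1 + Z) = c * K := by linear_combination hzero
    rw [← hKe, hQ]
    rw [hcl] at h1 ⊢
    linear_combination (Dv ^ 2 * d ^ 2 * 50000 * M ^ 3 * d * ((N - 2) * (N + 2))) * h1
  have hP := pe_of_hev hc b.hx b.hy hZ htd hv
  have key := wdn_eval (D := lineD D0 T0) (S := lineS D0 T0) (T := lineT D0 T0) (b.eN Z) (b.em Z)
    (b.eh Z) eD eS eT hh.ne' hT0.ne' k w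
  have e : pe x y Z (lineL D0 T0) (s * w * Dv ^ 2)
      = 50000 * M * d * ((N - 2) * M ^ 2 * T * s ^ 2 * Dv ^ 6 * linePhi N T k s w) := by
    rw [← key]
    simp only [lineL, pe_padd, pe_psc, pe_cons, pe_nil, eval_add', eval_sub', eval_mul', eval_c,
      b.em, b.eD, b.enn, b.ekA, b.eh, b.eN, eD, eS, eT, ← hMd, ← hdd]
    push_cast
    rw [hk]
    ring
  rw [e] at hP
  have : 0 ≤ (N - 2) * M ^ 2 * T * s ^ 2 * Dv ^ 6 * linePhi N T k s w :=
    nonneg_of_mul_nonneg_right hP (by positivity)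
  exact nonneg_of_mul_nonneg_right this (by positivity)

/-- The slope bound at a constant height. -/
theorem ud_phi {f R0 : Ex} (hc : (udL D0 T0 f R0).all check = true) (b : Base D0 T0 N T x y)
    (hN : 5 ≤ N) (hT : 1 < T) {fv r : ℝ} (hf : 0 < fv) (ef : ∀ z, f.eval x y z = fv)
    (er : ∀ z, R0.eval x y z = r * fv * D0.eval x y 0) {s W β top : ℝ}
    (hβ : β = (15 - 2 * N) / 5 * (634 + 484 * (T - 1)) / 10000 * (T - 1))
    (htop : top = 34 / 100 * (2 / (N - 2) + (T - 1) / 10) * r) (hs : 0 < s)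
    (hs1 : lineS2 N T - (T - 1) / 10 < s) (hs2 : s ≤ lineS2 N T) (hW1 : β ≤ W) (hW2 : W < top) :
    linePhi N T 0 s (W / s) ≤ 0 := by
  have hT0 : 0 < T := by linarith
  have hh : 0 < N - 2 := by linarith
  have hSB : 0 < N ^ 2 * (1 + T) + 2 * (N - 2) * T := by positivity
  set Y := lineS2 N T - s with hY
  have hY0 : 0 ≤ Y := by linarith
  have hY1 : 0 < (T - 1) - 10 * Y := by linarith
  set Z := 10 * Y / ((T - 1) - 10 * Y) with hZd
  have hZ : 0 ≤ Z := by positivity
  have hzero : ((T - 1) - 10 * Y) * Z = 10 * Y := by rw [hZd, mul_div_cancel₀ _ hY1.ne']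
  set w := (W - β) / (top - W) with hwd
  have hw : 0 ≤ w := div_nonneg (by linarith) (by linarith)
  have hwz : (top - W) * w = W - β := by rw [hwd, mul_div_cancel₀ _ (by linarith)]
  have hM := b.hm
  have hD0 := b.hD
  set M := Em.eval x y 0 with hMd
  set d := D0.eval x y 0 with hdd
  set SBv := (SB D0 T0).eval x y Z with hSBd
  have hSB0 : 0 < SBv := by rw [hSBd, b.eSB]; positivity
  set Dv := d * SBv * (10 * (1 + Z)) with hDv
  have hDv0 : 0 < Dv := by positivity
  have eE : udE.eval x y Z = 10 * (1 + Z) := by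
    simp only [udE, eval_add', eval_mul', eval_c, Ex.eval]; push_cast; ring
  have eD : (udD D0 T0).eval x y Z = Dv := by
    simp only [udD, eval_mul', b.eD, eE]; rfl
  have eT : (udT D0 T0).eval x y Z = T * Dv := by
    simp only [udT, eval_mul', b.eT, eE]; rw [hDv]; ring
  have eS : (udS D0 T0).eval x y Z = s * Dv := by
    simp only [udS, eval_sub', eval_mul', eE, b.eSA Z hSB.ne', b.ed0, Ex.eval, ← hSBd, ← hdd]
    rw [hDv]
    linear_combination (-(d * SBv)) * hzero
  have etd : (udTd D0 f).eval x y Z = 50000 * M * d * d * 10 * ((N - 2) * M) * fv * 100 := by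
    simp only [udTd, eval_mul', eval_c, b.em, b.eD, b.eh, ef]; push_cast; ring
  have htd : 0 < (udTd D0 f).eval x y Z := by rw [etd]; positivity
  have hv : W * Dv ^ 2 * ((udTd D0 f).eval x y Z * (1 + w))
      = (udLo D0 T0 f).eval x y Z + (udHi D0 T0 R0).eval x y Z * w := by
    rw [etd]
    simp only [udLo, udHi, eval_add', eval_mul', eval_c, b.em, b.eD, b.eh, b.enn, b.ebA, b.ed0,
      eD, ef, er]
    push_cast
    have htop' : top * (N - 2) = 34 / 1000 * (20 + (N - 2) * (T - 1)) * r := by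
      rw [htop]; field_simp; ring
    have hwz' : W * (1 + w) = β + top * w := by linear_combination -hwz
    rw [hβ] at hwz'
    linear_combination (Dv ^ 2 * (50000 * M * d * d * 10 * ((N - 2) * M) * fv * 100)) * hwz'
      + (Dv ^ 2 * w * (50000 * M * d * d * 10 * M * fv * 100)) * htop'
  have hP := pe_of_bern hc b.hx b.hy hZ hw htd hv
  have key := wdn_eval (D := udD D0 T0) (S := udS D0 T0) (T := udT D0 T0) (b.eN Z) (b.em Z)
    (b.eh Z) eD eS eT hh.ne' hT0.ne' 0 (W / s)
  rw [zero_mul, zero_mul, sub_zero, mul_div_cancel₀ _ hs.ne'] at key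
  rw [pe_pneg, key] at hP
  have : 0 < (N - 2) * M ^ 2 * T * s ^ 2 * Dv ^ 6 := by positivity
  exact le_of_mul_le_mul_left (by linarith) this

/-- The logarithm bound with the constant `β`. -/
theorem g_ineq (hc : check (gP D0 T0) = true) (b : Base D0 T0 N T x y) (hN : 5 ≤ N)
    (hN' : N ≤ 6) (hT : 1 < T) {k c K β s : ℝ}
    (hk : k = (15 - 2 * N) / 5 * (655 + 1170 * (T - 1)) / 10000)
    (hcl : c = (15 - 2 * N) / 5 * (576 + 448 * (T - 1)) / 10000 * (T - 1))
    (hK : K = (N ^ 2 * (1 + T) + 2 * (N - 2)) / ((N - 2) * (N + 2)))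
    (hβ : β = (15 - 2 * N) / 5 * (634 + 484 * (T - 1)) / 10000 * (T - 1))
    (hlo : c ≤ (k + K) * (lineS2 N T - s)) (hhi : lineS2 N T - s < (T - 1) / 10) :
    5001 / 5000 * β * ((N - 2) * T) * ((T - s) * (T + 5 * s))
      ≤ N * (1 + T) * (lineS2 N T - s) * (2 * T - s - lineS2 N T) * (s * (2 * T + s)) := by
  have hT0 : 0 < T := by linarith
  have hh : 0 < N - 2 := by linarith
  have hN2 : 0 < (N - 2) * (N + 2) := mul_pos hh (by linarith)
  have hSB : 0 < N ^ 2 * (1 + T) + 2 * (N - 2) * T := by positivity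
  have hk0 : 0 < k := by
    have : 0 < 15 - 2 * N := by linarith
    rw [hk]; positivity
  have hK0 : 0 < K := by rw [hK]; positivity
  have hkK : 0 < k + K := by linarith
  set Y := lineS2 N T - s with hY
  have hY1 : 0 < (T - 1) - 10 * Y := by linarith
  set Z := (10 * ((k + K) * Y) - 10 * c) / ((k + K) * ((T - 1) - 10 * Y)) with hZd
  have hZ : 0 ≤ Z := div_nonneg (by linarith) (mul_pos hkK hY1).le
  have hzero : (k + K) * ((T - 1) - 10 * Y) * Z = 10 * ((k + K) * Y) - 10 * c := by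
    rw [hZd, mul_div_cancel₀ _ (mul_pos hkK hY1).ne']
  have hM := b.hm
  have hD0 := b.hD
  set M := Em.eval x y 0 with hMd
  set d := D0.eval x y 0 with hdd
  set Q := 50000 * M ^ 3 * d * ((N - 2) * (N + 2)) with hQ
  have eK := b.eKK Z hN2.ne'
  have ek := b.ekk Z
  have ec := b.ecc Z
  rw [← hk, ← hQ] at ek
  rw [← hK, ← hQ] at eK
  rw [← hQ] at ec
  set SBv := (SB D0 T0).eval x y Z with hSBd
  have hSB0 : 0 < SBv := by rw [hSBd, b.eSB]; positivity
  set Dv := d * SBv * (10 * (1 + Z) * ((k + K) * Q)) with hDv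
  have hDv0 : 0 < Dv := by positivity
  have eY : (gY D0 T0).eval x y Z = (k + K) * Q := by
    simp only [gY, eval_add', ek, eK]; ring
  have eD : (gD D0 T0).eval x y Z = Dv := by
    simp only [gD, eval_add', eval_mul', eval_c, b.eD, eY, Ex.eval]; push_cast; rfl
  have eT : (gT D0 T0).eval x y Z = T * Dv := by
    simp only [gT, eval_add', eval_mul', eval_c, b.eT, eY, Ex.eval]; push_cast; rw [hDv]; ring
  have eV : (gV D0 T0).eval x y Z = Y * Dv := by
    simp only [gV, eval_add', eval_mul', eval_c, b.ed0, ec, eY, Ex.eval, ← hSBd, ← hdd]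
    push_cast
    rw [hcl] at hzero
    rw [hDv]
    linear_combination (d * SBv * Q) * hzero
  have eS2 : (gS2 D0 T0).eval x y Z = lineS2 N T * Dv := by
    simp only [gS2, eval_add', eval_mul', eval_c, b.eSA Z hSB.ne', eY, Ex.eval, ← hSBd, ← hdd]
    push_cast; rw [hDv]; ring
  have eS : (gS D0 T0).eval x y Z = s * Dv := by
    simp only [gS, eval_sub', eS2, eV, hY]; ring
  have hP := nonneg_of_check hc b.hx b.hy hZ
  simp only [gP, eval_add', eval_sub', eval_mul', eval_c, eD, eT, eV, eS, eS2, b.eN, b.em, b.eh,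
    b.eD, b.enn, b.ebA, b.ed0] at hP
  push_cast at hP
  have e : 50000 * 5000 * M ^ 2 * d ^ 2 * Dv ^ 5
      * (N * (1 + T) * Y * (2 * T - s - lineS2 N T) * (s * (2 * T + s))
        - 5001 / 5000 * β * ((N - 2) * T) * ((T - s) * (T + 5 * s))) ≥ 0 := by
    refine le_of_le_of_eq hP ?_
    exact g_alg hβ
  linarith [nonneg_of_mul_nonneg_right e (by positivity)]

/-- The logarithm bound with the constant `wm σ₀`. -/
theorem f_ineq {f D S T' ed : Ex} (hc : check (fP D0 T0 f D T' S ed) = true)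
    (b : Base D0 T0 N T x y) (hN : 5 ≤ N) (hT : 1 < T) {z Dv s fv edv : ℝ} (hz : 0 ≤ z)
    (hDv : Dv = fv * D0.eval x y 0 * edv) (hpos : 0 < Dv) (ef : f.eval x y z = fv)
    (eed : ed.eval x y z = edv) (eD : D.eval x y z = Dv) (eS : S.eval x y z = s * Dv)
    (eT : T'.eval x y z = T * Dv) :
    5001 / 5000 * (N ^ 2 * (1 + T) + 2 * (N - 2) * T) * ((T - s) * (T + 5 * s))
      ≤ N * (1 + T) * (N + 2) * (2 * T - s - lineS2 N T) * (2 * T + s) := by
  have hh : 0 < N - 2 := by linarith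
  have hSB : 0 < N ^ 2 * (1 + T) + 2 * (N - 2) * T := by
    have : 0 < T := by linarith
    positivity
  have hM := b.hm
  have hP := nonneg_of_check hc b.hx b.hy hz
  have hS2 : (SA D0 T0).eval x y z * fv * edv
      = lineS2 N T * Dv * (SB D0 T0).eval x y z := by
    rw [b.eSA z hSB.ne', hDv]; ring
  simp only [fP, eval_add', eval_sub', eval_mul', eval_c, eD, eS, eT, eed, ef, hS2, b.eN, b.em,
    b.eh] at hP
  push_cast at hP
  have hSB0 : 0 < (SB D0 T0).eval x y z := by
    have := b.hD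
    have : 0 < T := by linarith
    rw [b.eSB]; positivity
  set B := (SB D0 T0).eval x y z
  have e : 5000 * Em.eval x y 0 ^ 2 * Dv ^ 3 * B ^ 2
      * (N * (1 + T) * (N + 2) * (2 * T - s - lineS2 N T) * (2 * T + s)
        - 5001 / 5000 * (N ^ 2 * (1 + T) + 2 * (N - 2) * T) * ((T - s) * (T + 5 * s))) ≥ 0 := by
    refine le_of_le_of_eq hP ?_
    ring
  linarith [nonneg_of_mul_nonneg_right e (by positivity)]

/-- `σ₂ - σ∞ < r̄`. -/
theorem rg_ineq {f R0 Si0 m' : Ex} (hc : check (rgP D0 T0 f R0 Si0 - m') = true)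
    (b : Base D0 T0 N T x y) (hN : 5 ≤ N) (hT : 1 < T) {fv si r : ℝ} (hf : 0 < fv)
    (ef : f.eval x y 0 = fv) (ei : Si0.eval x y 0 = si * fv * D0.eval x y 0)
    (er : R0.eval x y 0 = r * fv * D0.eval x y 0) (hm : 0 < m'.eval x y 0) :
    lineS2 N T - si < r := by
  have : 0 < T := by linarith
  have hh : 0 < N - 2 := by linarith
  have hSB : 0 < N ^ 2 * (1 + T) + 2 * (N - 2) * T := by positivity
  have hP := nonneg_of_check hc b.hx b.hy le_rfl
  simp only [rgP, eval_add', eval_sub', eval_mul', ef, ei, er, b.eSA 0 hSB.ne'] at hP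
  have h1 : 0 < fv * D0.eval x y 0 * (SB D0 T0).eval x y 0
      * (si + r - lineS2 N T) := by linarith
  have hpos : 0 < fv * D0.eval x y 0 * (SB D0 T0).eval x y 0 := by
    have := b.hD; have := b.hm
    rw [b.eSB]; positivity
  linarith [pos_of_mul_pos_right h1 hpos.le]

/-- The lower line is negative at `σ∞`. -/
theorem ls_ineq {f Si0 m' : Ex} (hc : check (lsP D0 T0 f Si0 - m') = true)
    (b : Base D0 T0 N T x y) (hN : 5 ≤ N) (hT : 1 < T) {fv si k c : ℝ} (hf : 0 < fv)
    (ef : f.eval x y 0 = fv) (ei : Si0.eval x y 0 = si * fv * D0.eval x y 0)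
    (hm : 0 < m'.eval x y 0)
    (hk : k = (15 - 2 * N) / 5 * (655 + 1170 * (T - 1)) / 10000)
    (hcl : c = (15 - 2 * N) / 5 * (576 + 448 * (T - 1)) / 10000 * (T - 1)) :
    k * (si - lineS2 N T) + c < 0 := by
  have : 0 < T := by linarith
  have hh : 0 < N - 2 := by linarith
  have hSB : 0 < N ^ 2 * (1 + T) + 2 * (N - 2) * T := by positivity
  have hP := nonneg_of_check hc b.hx b.hy le_rfl
  have ek := b.ekk 0
  rw [← hk] at ek
  simp only [lsP, eval_add', eval_sub', eval_mul', ef, ei, b.eSA 0 hSB.ne', ek, b.ecc, b.ed0] at hP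
  have hN2 : 0 < (N - 2) * (N + 2) := mul_pos hh (by linarith)
  set Q := 50000 * Em.eval x y 0 ^ 3 * D0.eval x y 0 * ((N - 2) * (N + 2)) with hQ
  have hpos : 0 < fv * D0.eval x y 0 * (SB D0 T0).eval x y 0 * Q := by
    have := b.hD; have := b.hm
    rw [b.eSB, hQ]; positivity
  have h1 : 0 < fv * D0.eval x y 0 * (SB D0 T0).eval x y 0 * Q
      * (-(k * (si - lineS2 N T) + c)) := by
    rw [hcl]; linarith
  linarith [pos_of_mul_pos_right h1 hpos.le]

end cert

end Vale.Agent.P100T.Five
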