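import Vale.Agent.P100T.Five.LowEval
import Vale.Agent.P100T.Five.Box
import Vale.Agent.P100T.Extension

/-!
The lower line before `τ₀` and the box of the orbit between `τ₀` and `log T`, in dimension five.
-/

open Set Filter Topology

noncomputable section

namespace Vale.Agent.P100T

namespace Five

open PosCheck UpperCert

variable {N p q : ℝ}

/-- `log x < (x-1)(x+5)/(2(2x+1))` for `x > 1`. -/
lemma log_lt_pade {x : ℝ} (hx : 1 < x) : Real.log x < (x - 1) * (x + 5) / (2 * (2 * x + 1)) := by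
  have hd : ∀ t, 1 ≤ t → HasDerivAt (fun t => (t - 1) * (t + 5) / (2 * (2 * t + 1)) - Real.log t)
      ((t - 1) ^ 3 / (t * (2 * t + 1) ^ 2)) t := by
    intro t ht
    have h1 := (((hasDerivAt_id t).sub_const 1).mul ((hasDerivAt_id t).add_const 5)).div
      ((((hasDerivAt_id t).const_mul 2).add_const 1).const_mul 2)
      (show 2 * (2 * t + 1) ≠ 0 by linarith)
    refine (h1.sub (Real.hasDerivAt_log (by linarith))).congr_deriv ?_
    have : t ≠ 0 := by linarith
    have : 2 * t + 1 ≠ 0 := by linarith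
    simp only [id, Pi.mul_apply]
    field_simp
    ring
  have hm := strictMonoOn_of_deriv_pos (convex_Ici 1)
    (fun t ht => (hd t ht).continuousAt.continuousWithinAt)
    (fun t ht => by
      rw [interior_Ici] at ht
      rw [(hd t ht.le).deriv]
      have : 0 < t - 1 := sub_pos.2 ht
      have : 0 < t := by linarith
      positivity) self_mem_Ici hx.le hx
  norm_num at hm
  linarith

lemma sTwo_eq (R : Range N p q) : sTwo N p q = lineS2 N (tb p q) := by
  have := R.hN
  have := R.one_lt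
  have h2 : N - 2 ≠ 0 := by linarith
  have : tb p q ≠ 0 := by linarith
  rw [sTwo, lineS2, R.hp1, R.hq1]
  field_simp

lemma wm_eq (R : Range N p q) (s : ℝ) :
    wm N p q s = s * (N * (q + 1) + 2) * (sTwo N p q - s) / (N + 2) := by
  have := R.hN; have := R.hq
  have h : sTwo N p q * (N * (q + 1) + 2) = N * (p + 1) + 2 := by
    rw [sTwo, div_mul_cancel₀ _ (by positivity)]
  rw [wm]
  congr 1
  linear_combination (-s) * h

lemma wm_le_K2 (R : Range N p q) {s : ℝ} (hs : s ≤ sTwo N p q) :
    wm N p q s ≤ K2 N p q * (sTwo N p q - s) := by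
  have := R.hN; have := R.hq
  rw [wm_eq R, K2, div_mul_eq_mul_div]
  gcongr

lemma K2_eq (R : Range N p q) :
    K2 N p q = (N ^ 2 * (1 + tb p q) + 2 * (N - 2)) / ((N - 2) * (N + 2)) := by
  have := R.hN; have := R.hq
  have h : sTwo N p q * (N * (q + 1) + 2) = N * (p + 1) + 2 := by
    rw [sTwo, div_mul_cancel₀ _ (by positivity)]
  have : N - 2 ≠ 0 := by linarith
  rw [K2, h, R.hp1]
  field_simp

lemma kL_eq : kL N p q = (15 - 2 * N) / 5 * (655 + 1170 * (tb p q - 1)) / 10000 := by
  rw [kL, sc]; ring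

lemma cL_eq :
    cL N p q = (15 - 2 * N) / 5 * (576 + 448 * (tb p q - 1)) / 10000 * (tb p q - 1) := by
  rw [cL, sc]; ring

lemma bF_eq :
    bF N p q = (15 - 2 * N) / 5 * (634 + 484 * (tb p q - 1)) / 10000 * (tb p q - 1) := by
  rw [bF, sc]; ring

lemma kL_pos (R : Range N p q) : 0 < kL N p q := by
  have := R.hN'; have := R.one_lt
  rw [kL_eq]
  have : 0 < 15 - 2 * N := by linarith
  positivity

lemma cL_pos (R : Range N p q) : 0 < cL N p q := by
  have := R.hN'; have := R.one_lt
  rw [cL_eq]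
  have : 0 < 15 - 2 * N := by linarith
  have : 0 < tb p q - 1 := by linarith
  positivity

lemma si_L (R : Range N p q) (h : (N - 2) * tb p q < N) : si N p q = 1 := by
  have := R.hN
  rw [si, R.sEq_eq, max_eq_left]
  rw [div_le_one (by linarith)]; linarith

lemma si_G (R : Range N p q) (h : N ≤ (N - 2) * tb p q) :
    si N p q = (N - 2) * tb p q / N := by
  have := R.hN
  rw [si, R.sEq_eq, max_eq_right]
  rw [le_div_iff₀ (by linarith)]; linarith

lemma base_of (R : Range N p q) {D0 T0 : Ex} {y : ℝ} (hy : 0 ≤ y)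
    (hD : 0 < D0.eval (xN N) y 0)
    (eD : ∀ z, D0.eval (xN N) y z = D0.eval (xN N) y 0)
    (eT : ∀ z, T0.eval (xN N) y z = tb p q * D0.eval (xN N) y 0) :
    Base D0 T0 N (tb p q) (xN N) y := by
  have em : ∀ z, Em.eval (xN N) y z = Em.eval (xN N) y 0 := fun z => by simp [Em, Ex.eval]
  exact ⟨R.xN_pos.le, hy, R.En_eval.2.1, fun z => by rw [R.En_eval.1, em], em,
    fun z => by rw [R.En_eval.2.2, em], hD, eD, eT⟩

/-- The base for `σ∞ = 1`, with the values of `Lf`, `LSi0`, `LR`. -/
lemma baseL (R : Range N p q) (h : (N - 2) * tb p q < N) :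
    ∃ y, 0 < y ∧ Base LD0 LT0 N (tb p q) (xN N) y ∧
      (∀ z, Lf.eval (xN N) y z = 1000) ∧
      (∀ z, LSi0.eval (xN N) y z = si N p q * 1000 * LD0.eval (xN N) y 0) ∧
      ∀ z, LR.eval (xN N) y z = rb N p q * 1000 * LD0.eval (xN N) y 0 := by
  have hN := R.hN
  have hT := R.one_lt
  have hh : 0 < N - 2 := by linarith
  have hg : 0 < N - (N - 2) * tb p q := by linarith
  obtain ⟨y, hy, hdy⟩ : ∃ y, 0 < y ∧ (tb p q - 1) * ((N - 2) * (1 + y)) = 2 * y := by
    refine ⟨(N - 2) * (tb p q - 1) / (N - (N - 2) * tb p q),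
      div_pos (mul_pos hh (by linarith)) hg, ?_⟩
    rw [one_add_div hg.ne', mul_div_assoc', mul_div_assoc', mul_div_assoc']
    congr 1
    ring
  have em : ∀ z, Em.eval (xN N) y z = Em.eval (xN N) y 0 := fun z => by simp [Em, Ex.eval]
  have hM : 0 < Em.eval (xN N) y 0 := R.En_eval.2.1
  have eD : ∀ z, LD0.eval (xN N) y z = (N - 2) * Em.eval (xN N) y 0 * (1 + y) := fun z => by
    simp only [LD0, eval_mul', eval_add', eval_c, R.En_eval.2.2, em, Ex.eval]; push_cast; ring
  refine ⟨y, hy, base_of R hy.le (by rw [eD]; positivity) (fun z => by rw [eD, eD]) (fun z => ?_),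
    fun z => by simp [Lf], fun z => ?_, fun z => ?_⟩
  · simp only [LT0, eval_mul', eval_add', eval_c, eD, em, Ex.eval]
    push_cast
    linear_combination (-Em.eval (xN N) y 0) * hdy
  · simp only [LSi0, eval_mul', eval_c, eD, si_L R h]; push_cast; ring
  · rw [rb, if_pos h]
    simp only [LR, eval_mul', eval_c, eD, em, Ex.eval]
    push_cast
    linear_combination (-(895 * Em.eval (xN N) y 0)) * hdy

/-- The base for `σ∞ ≥ 1`, with the values of `Gf`, `GSi0`, `GR`. -/
lemma baseG (R : Range N p q) (h : N ≤ (N - 2) * tb p q) :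
    ∃ y fv, 0 ≤ y ∧ 0 < fv ∧ Base GD0 GT0 N (tb p q) (xN N) y ∧
      (∀ z, Gf.eval (xN N) y z = fv) ∧
      (∀ z, (GSi0 GT0).eval (xN N) y z = si N p q * fv * GD0.eval (xN N) y 0) ∧
      ∀ z, GR.eval (xN N) y z = rb N p q * fv * GD0.eval (xN N) y 0 := by
  have hN := R.hN
  have hh : 0 < N - 2 := by linarith
  have hN0 : N ≠ 0 := by linarith
  have hg : 0 < (2 - tb p q) * (N - 2) := mul_pos (by linarith [R.lt_two]) hh
  obtain ⟨y, hy, hdy⟩ : ∃ y, 0 ≤ y ∧ tb p q * ((N - 2) * (1 + y)) = N + 2 * (N - 2) * y := by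
    refine ⟨((N - 2) * tb p q - N) / ((2 - tb p q) * (N - 2)),
      div_nonneg (by linarith) hg.le, ?_⟩
    rw [one_add_div hg.ne', mul_div_assoc', mul_div_assoc', mul_div_assoc',
      ← sub_eq_iff_eq_add, ← sub_div, div_eq_iff hg.ne']
    ring
  have em : ∀ z, Em.eval (xN N) y z = Em.eval (xN N) y 0 := fun z => by simp [Em, Ex.eval]
  have hM : 0 < Em.eval (xN N) y 0 := R.En_eval.2.1
  have eN : ∀ z, En.eval (xN N) y z = N * Em.eval (xN N) y 0 := fun z => by
    rw [R.En_eval.1, em]
  have eh : ∀ z, Eh.eval (xN N) y z = (N - 2) * Em.eval (xN N) y 0 := fun z => by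
    rw [R.En_eval.2.2, em]
  have eD : ∀ z, GD0.eval (xN N) y z = (N - 2) * Em.eval (xN N) y 0 * (1 + y) := fun z => by
    simp only [GD0, eval_mul', eval_add', eval_c, eh, Ex.eval]; push_cast; ring
  have eT : ∀ z, GT0.eval (xN N) y z = tb p q * GD0.eval (xN N) y 0 := fun z => by
    simp only [GT0, eval_mul', eval_add', eval_c, eD, eN, eh, Ex.eval]
    push_cast
    linear_combination (-Em.eval (xN N) y 0) * hdy
  refine ⟨y, N * Em.eval (xN N) y 0 * 10000 * (1 + y), hy, by positivity,
    base_of R hy (by rw [eD]; positivity) (fun z => by rw [eD, eD]) eT, fun z => ?_,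
    fun z => ?_, fun z => ?_⟩
  · simp only [Gf, eval_mul', eval_add', eval_c, eN, Ex.eval]; push_cast; ring
  · simp only [GSi0, eval_mul', eval_add', eval_c, eT, eh, si_G R h, Ex.eval]
    push_cast; field_simp
  · have hu : ((N - 2) * tb p q - N) / (2 * (N - 2) - N) = y / (1 + y) := by
      have : 2 * (N - 2) - N ≠ 0 := by linarith
      have : 1 + y ≠ 0 := by linarith
      field_simp
      linear_combination hdy
    rw [rb, if_neg (not_lt.2 h), hu]
    simp only [GR, eval_mul', eval_add', eval_c, eT, em, Ex.eval]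
    have : 1 + y ≠ 0 := by linarith
    push_cast
    field_simp
    ring

/-- The base encoding `T < 2 - 1.69 (N-5)`. -/
lemma baseT (R : Range N p q) (h : N ≤ (N - 2) * tb p q) :
    ∃ y fv, 0 ≤ y ∧ 0 < fv ∧ Base TD0 TT0 N (tb p q) (xN N) y ∧
      (∀ z, Gf.eval (xN N) y z = fv) ∧
      ∀ z, (GSi0 TT0).eval (xN N) y z = si N p q * fv * TD0.eval (xN N) y 0 := by
  have hN := R.hN
  have hh : 0 < N - 2 := by linarith
  have hN0 : N ≠ 0 := by linarith
  set Tm := 2 - 169 / 100 * (N - 5) with hTm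
  have hg : 0 < (Tm - tb p q) * (N - 2) := mul_pos (by linarith [R.hT]) hh
  obtain ⟨y, hy, hdy⟩ : ∃ y, 0 ≤ y ∧ tb p q * ((N - 2) * (1 + y)) = N + Tm * (N - 2) * y := by
    refine ⟨((N - 2) * tb p q - N) / ((Tm - tb p q) * (N - 2)),
      div_nonneg (by linarith) hg.le, ?_⟩
    rw [one_add_div hg.ne', mul_div_assoc', mul_div_assoc', mul_div_assoc',
      ← sub_eq_iff_eq_add, ← sub_div, div_eq_iff hg.ne']
    ring
  have em : ∀ z, Em.eval (xN N) y z = Em.eval (xN N) y 0 := fun z => by simp [Em, Ex.eval]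
  have hM : 0 < Em.eval (xN N) y 0 := R.En_eval.2.1
  have eN : ∀ z, En.eval (xN N) y z = N * Em.eval (xN N) y 0 := fun z => by
    rw [R.En_eval.1, em]
  have eh : ∀ z, Eh.eval (xN N) y z = (N - 2) * Em.eval (xN N) y 0 := fun z => by
    rw [R.En_eval.2.2, em]
  have eD : ∀ z, TD0.eval (xN N) y z
      = (N - 2) * Em.eval (xN N) y 0 * (100 * Em.eval (xN N) y 0) * (1 + y) := fun z => by
    simp only [TD0, eval_mul', eval_add', eval_c, eh, em, Ex.eval]; push_cast; ring
  have eT : ∀ z, TT0.eval (xN N) y z = tb p q * TD0.eval (xN N) y 0 := fun z => by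
    simp only [TT0, eval_mul', eval_add', eval_sub', eval_c, eD, eN, em, eh, Ex.eval]
    push_cast
    linear_combination (-(100 * Em.eval (xN N) y 0 ^ 2)) * hdy
      + (100 * Em.eval (xN N) y 0 ^ 2 * (N - 2) * y) * (-hTm)
  refine ⟨y, N * Em.eval (xN N) y 0 * 10000 * (1 + y), hy, by positivity,
    base_of R hy (by rw [eD]; positivity) (fun z => by rw [eD, eD]) eT, fun z => ?_, fun z => ?_⟩
  · simp only [Gf, eval_mul', eval_add', eval_c, eN, Ex.eval]; push_cast; ring
  · simp only [GSi0, eval_mul', eval_add', eval_c, eT, eh, si_G R h, Ex.eval]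
    push_cast; field_simp

lemma five_r_lt (R : Range N p q) : sTwo N p q - si N p q < rb N p q := by
  rw [sTwo_eq R]
  have hN := R.hN
  rcases lt_or_ge ((N - 2) * tb p q) N with h | h
  · obtain ⟨y, hy, b, ef, ei, er⟩ := baseL R h
    exact rg_ineq rg_L b hN.le R.one_lt (by norm_num) (ef 0) (ei 0) (er 0) (by simp [Ex.eval, hy])
  · obtain ⟨y, fv, hy, hf, b, ef, ei, er⟩ := baseG R h
    exact rg_ineq rg_G b hN.le R.one_lt hf (ef 0) (ei 0) (er 0) (by simp)

lemma low_si_neg (R : Range N p q) : low N p q (si N p q) < 0 := by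
  rw [low, sTwo_eq R]
  have hN := R.hN
  rcases lt_or_ge ((N - 2) * tb p q) N with h | h
  · obtain ⟨y, hy, b, ef, ei, -⟩ := baseL R h
    exact ls_ineq ls_L b hN.le R.one_lt (by norm_num) (ef 0) (ei 0) (by simp [Ex.eval, hy])
      kL_eq cL_eq
  · obtain ⟨y, fv, hy, hf, b, ef, ei⟩ := baseT R h
    exact ls_ineq ls_G b hN.le R.one_lt hf (ef 0) (ei 0) (by simp) kL_eq cL_eq

/-- The slope bound on the lower line. -/
lemma low_slope (R : Range N p q) {s : ℝ} (hs : 0 < s)
    (hlo : cL N p q ≤ (kL N p q + K2 N p q) * (sTwo N p q - s))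
    (hhi : kL N p q * (sTwo N p q - s) < cL N p q) :
    kL N p q * low N p q s ≤ (par N p q).Wd s (low N p q s) := by
  have hN := R.hN
  have hN' := R.hN'
  have hT := R.one_lt
  rw [sTwo_eq R] at hlo hhi
  have hphi : 0 ≤ linePhi N (tb p q) (kL N p q) s (low N p q s / s) := by
    rw [low, sTwo_eq R]
    rcases lt_or_ge ((N - 2) * tb p q) N with h | h
    · obtain ⟨y, -, b, -⟩ := baseL R h
      exact line_phi line_L b hN.le (by linarith) hT kL_eq cL_eq (K2_eq R) hs hlo hhi
    · obtain ⟨y, fv, -, -, b, -⟩ := baseT R h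
      exact line_phi line_G b hN.le (by linarith) hT kL_eq cL_eq (K2_eq R) hs hlo hhi
  have hid := Wd_line (par N p q) (T := tb p q) (show 2 < N by linarith) R.hq (by linarith)
    (show (N - 2) * (p + 1) = N * (1 + tb p q) by
      rw [R.hp1, mul_div_cancel₀ _ (by linarith : N - 2 ≠ 0)])
    (show (q + 1) * tb p q = p + 1 by rw [tb, mul_div_cancel₀ _ (by linarith [R.hq])])
    hs (kL N p q) (low N p q s / s)
  rw [mul_div_cancel₀ _ hs.ne', show (par N p q).N = N from rfl] at hid
  have h0 : 0 ≤ ((par N p q).Wd s (low N p q s) - kL N p q * low N p q s)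
      * ((N + 4) * (s + tb p q)) := hid ▸ mul_nonneg hs.le hphi
  linarith [nonneg_of_mul_nonneg_left h0 (by positivity)]

lemma e0_ge (R : Range N p q) : 905 / 1000 ≤ e0 N p q ∧ e0 N p q < 1 := by
  have := R.hN; have := R.one_lt
  rw [e0]
  split_ifs with h
  · constructor <;> nlinarith
  · norm_num

lemma aA_pos (R : Range N p q) : 0 < aA N p q := by
  have := R.hN; have := R.one_lt
  rw [aA]
  exact add_pos (div_pos two_pos (by linarith)) (by linarith)

lemma U_le (R : Range N p q) {s : ℝ} (hs : si N p q + e0 N p q * rb N p q ≤ s) :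
    U N p q s ≤ 2925 / 10000 * aA N p q * rb N p q := by
  have hr := rb_pos R
  have ha := aA_pos R
  obtain ⟨e, he⟩ : ∃ e, s - si N p q = e * rb N p q :=
    ⟨(s - si N p q) / rb N p q, by rw [div_mul_cancel₀ _ hr.ne']⟩
  have he0 : 905 / 1000 ≤ e := by
    by_contra hlt
    push Not at hlt
    nlinarith [mul_lt_mul_of_pos_right (hlt.trans_le (e0_ge R).1) hr]
  rw [U, he, mul_div_assoc]
  have : e * (1 - 3 / 4 * e) ≤ 2925 / 10000 := by nlinarith
  rw [div_self hr.ne', mul_one]
  nlinarith [mul_le_mul_of_nonneg_left this (mul_pos ha hr).le]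

lemma top_ge (R : Range N p q) {s : ℝ} (hs : si N p q + e0 N p q * rb N p q ≤ s)
    (hs1 : s ≤ si N p q + rb N p q) : 34 / 100 * aA N p q * rb N p q ≤ top N p q s := by
  have hr := rb_pos R
  have ha := aA_pos R
  obtain ⟨e, he⟩ : ∃ e, s - si N p q = e * rb N p q :=
    ⟨(s - si N p q) / rb N p q, by rw [div_mul_cancel₀ _ hr.ne']⟩
  have he0 : 905 / 1000 ≤ e := by
    by_contra hlt
    push Not at hlt
    nlinarith [mul_lt_mul_of_pos_right (hlt.trans_le (e0_ge R).1) hr]
  have he1 : e ≤ 1 := le_of_mul_le_mul_right (by linarith) hr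
  rw [top, he, mul_div_assoc, div_self hr.ne', mul_one]
  have : 34 / 100 ≤ e * (1 - 66 / 100 * e) := by nlinarith
  nlinarith [mul_le_mul_of_nonneg_left this (mul_pos ha hr).le]

lemma bF_le (R : Range N p q) :
    0 < bF N p q ∧ bF N p q ≤ 2925 / 10000 * aA N p q * rb N p q := by
  have hN := R.hN
  have hN' := R.hN'
  have hT := R.one_lt
  have hT2 := R.lt_two
  have hsc : (15 - 2 * N) / 5 ≤ 1 := by linarith
  have hsc0 : 0 < (15 - 2 * N) / 5 := by linarith
  have hb : bF N p q ≤ (634 + 484 * (tb p q - 1)) / 10000 * (tb p q - 1) := by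
    rw [bF_eq, mul_div_assoc, mul_assoc]
    exact mul_le_of_le_one_left (mul_nonneg (by linarith) (by linarith)) hsc
  refine ⟨by rw [bF_eq]; have : 0 < tb p q - 1 := by linarith
             positivity, hb.trans ?_⟩
  have ha : 63 / 100 + (tb p q - 1) / 10 ≤ aA N p q := by
    rw [aA]
    have : 63 / 100 ≤ 2 / (N - 2) := by rw [le_div_iff₀ (by linarith)]; linarith
    linarith
  have hA := aA_pos R
  rw [rb]
  split_ifs with h
  · have h1 : tb p q - 1 ≤ 67 / 100 := by nlinarith
    have h2 := mul_le_mul_of_nonneg_right ha (show (0:ℝ) ≤ 895 / 1000 * (tb p q - 1) by linarith)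
    nlinarith
  · push Not at h
    have hu : ((N - 2) * tb p q - N) / (2 * (N - 2) - N) ≤ 1 := by
      rw [div_le_one (by linarith)]; nlinarith
    have h3 : 32 / 100 * tb p q ≤ 2 * tb p q / N
        * ((8724 - 441 * (((N - 2) * tb p q - N) / (2 * (N - 2) - N))) / 10000) := by
      rw [div_mul_eq_mul_div (2 * tb p q) N, le_div_iff₀ (by linarith)]
      nlinarith
    have h4 := mul_le_mul ha h3 (by linarith) hA.le
    nlinarith

lemma gap_lt (R : Range N p q) {s : ℝ} (hs : si N p q + e0 N p q * rb N p q ≤ s) :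
    sTwo N p q - s < (tb p q - 1) / 10 := by
  have hN := R.hN
  have hN' := R.hN'
  have hT := R.one_lt
  have hr := five_r_lt R
  have hr0 := rb_pos R
  obtain ⟨he, he1⟩ := e0_ge R
  have h1 : sTwo N p q - s < (1 - e0 N p q) * rb N p q := by linarith
  refine h1.trans_le ((mul_le_mul_of_nonneg_right (by linarith : 1 - e0 N p q ≤ 95 / 1000)
    hr0.le).trans ?_)
  rw [rb]
  split_ifs with h
  · linarith
  · push Not at h
    have hu : 0 ≤ ((N - 2) * tb p q - N) / (2 * (N - 2) - N) :=
      div_nonneg (by linarith) (by linarith)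
    have h2 : 2 * tb p q / N ≤ 2 * tb p q / 5 :=
      div_le_div_of_nonneg_left (by linarith) (by norm_num) hN.le
    have h3 : 163 / 100 ≤ tb p q := by nlinarith
    have h4 := mul_le_mul h2 (show ((8724 - 441 * (((N - 2) * tb p q - N) / (2 * (N - 2) - N)))
      / 10000 : ℝ) ≤ 8724 / 10000 by linarith) (by
        have : ((N - 2) * tb p q - N) / (2 * (N - 2) - N) ≤ 1 := by
          rw [div_le_one (by linarith)]; nlinarith [R.lt_two]
        linarith) (by linarith)
    linarith

lemma f_point (R : Range N p q) {s : ℝ} (hs : si N p q + e0 N p q * rb N p q ≤ s)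
    (hs1 : s < si N p q + rb N p q) :
    5001 / 5000 * (N ^ 2 * (1 + tb p q) + 2 * (N - 2) * tb p q)
        * ((tb p q - s) * (tb p q + 5 * s))
      ≤ N * (1 + tb p q) * (N + 2) * (2 * tb p q - s - lineS2 N (tb p q))
        * (2 * tb p q + s) := by
  have hN := R.hN
  have hh : 0 < N - 2 := by linarith
  have hr := rb_pos R
  obtain ⟨e, he⟩ : ∃ e, s - si N p q = e * rb N p q :=
    ⟨(s - si N p q) / rb N p q, by rw [div_mul_cancel₀ _ hr.ne']⟩
  have he0 : e0 N p q ≤ e := le_of_mul_le_mul_right (by linarith) hr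
  have he1 : e < 1 := by
    by_contra hge
    push Not at hge
    nlinarith [mul_le_mul_of_nonneg_right hge hr.le]
  set z := (e - e0 N p q) / (1 - e) with hzd
  have hz : 0 ≤ z := div_nonneg (by linarith) (by linarith)
  have hze : e0 N p q + z = e * (1 + z) := by
    have : z * (1 - e) = e - e0 N p q := by rw [hzd, div_mul_cancel₀ _ (by linarith)]
    linarith
  rcases lt_or_ge ((N - 2) * tb p q) N with h | h
  · obtain ⟨y, hy, b, ef, ei, er⟩ := baseL R h
    have hsi := si_L R h
    set d := LD0.eval (xN N) y 0 with hdd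
    have hd0 := b.hD
    rw [← hdd] at hd0
    have eed : Led.eval (xN N) y z = 10000 * d * (1 + z) := by
      simp only [Led, eval_mul', eval_add', eval_c, b.eD, Ex.eval]; push_cast; ring
    have een : Len.eval (xN N) y z = e * (10000 * d * (1 + z)) := by
      have h0 : e0 N p q = (9250 - 285 * (tb p q - 1)) / 10000 := by rw [e0, if_pos h]
      simp only [Len, Le0n, eval_mul', eval_add', eval_sub', eval_c, b.eD, b.ed0, Ex.eval]
      push_cast
      rw [h0] at hze
      linear_combination (10000 * d) * hze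
    have eLD : (LD Led).eval (xN N) y z = 1000 * d * (10000 * d * (1 + z)) := by
      simp only [LD, eval_mul', eval_c, b.eD, eed]; push_cast; rfl
    refine f_ineq f_L b hN.le R.one_lt hz rfl (by positivity) (ef z) eed eLD ?_ ?_
    · simp only [LS, eval_add', eval_mul', eLD, er z, een]
      rw [← hdd]
      linear_combination (-(1000 * d * (10000 * d * (1 + z)))) * he
        - (1000 * d * (10000 * d * (1 + z))) * hsi
    · simp only [LT, eval_mul', eval_c, b.eT, eed]; push_cast; ring
  · obtain ⟨y, fv, hy, hf, b, ef, ei, er⟩ := baseG R h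
    set d := GD0.eval (xN N) y 0 with hdd
    have hd0 := b.hD
    rw [← hdd] at hd0
    have eed : Ged.eval (xN N) y z = 1000 * (1 + z) := by
      simp only [Ged, eval_mul', eval_add', eval_c, Ex.eval]; push_cast; ring
    have een : Gen.eval (xN N) y z = e * (1000 * (1 + z)) := by
      have h0 : e0 N p q = 905 / 1000 := by rw [e0, if_neg (not_lt.2 h)]
      simp only [Gen, eval_mul', eval_add', eval_c, Ex.eval]
      push_cast
      rw [h0] at hze
      linear_combination (1000 : ℝ) * hze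
    have eF : GF.eval (xN N) y z = fv := ef z
    have eGD : (GD Ged).eval (xN N) y z = fv * d * (1000 * (1 + z)) := by
      simp only [GD, eval_mul', eF, b.eD, eed]; rfl
    have eSi : (GSi Ged).eval (xN N) y z = si N p q * fv * d * (1000 * (1 + z)) := by
      rw [show GSi Ged = GSi0 GT0 * Ged from rfl, eval_mul', ei z, eed]
    refine f_ineq f_G b hN.le R.one_lt hz rfl (by positivity) (ef z) eed eGD ?_ ?_
    · simp only [GS, eval_add', eval_mul', eSi, er z, een]
      rw [← hdd]
      linear_combination (-(fv * d * (1000 * (1 + z)))) * he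
    · simp only [GT, eval_mul', eF, b.eT, eed]; ring

end Five

namespace IsOrbitExt

open Five

variable {N p q τ₀ τb : ℝ} {S κ ε : ℝ → ℝ}

/-- **The lower line before `τ₀`.** -/
theorem five_low (o : IsOrbitExt N p q τ₀ τb S κ ε) (R : Five.Range N p q) {τ : ℝ}
    (hτ : τ < τ₀) : low N p q (S τ) < oW p q S τ := by
  have hN := R.hN
  have hN2 : 2 < N := by linarith
  have hp := R.hp
  have hq := R.hq
  have hk := kL_pos R
  set C := Five.par N p q
  have key : ∀ x y, x < y → y < τ₀ → 0 ≤ oW p q S x - low N p q (S x) →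
      0 < oW p q S y - low N p q (S y) := by
    intro x y hxy hy0 hge
    refine upcross (f := fun w => oW p q S w - low N p q (S w)) hxy (fun w hw =>
      (o.hasDerivAt_W ((hw.2.trans_lt hy0).trans o.τ₀_lt_τb)).sub
        ((((o.hasDerivAt_S hq ((hw.2.trans_lt hy0).trans o.τ₀_lt_τb)).sub_const
          (sTwo N p q)).const_mul (kL N p q)).add_const (cL N p q)))
      (fun w hw h0 => ?_) hge
    have hw0 := hw.2.trans_lt hy0
    have hwb := hw0.trans o.τ₀_lt_τb
    have hW := o.W_pos hN2 hp hq R.hcrit hw0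
    have hwm := o.W_lt_wm hN2 hp hq R.hpq R.hcrit hw0
    have hs2 : S w < sTwo N p q := o.S_lt_s2 hN2 hp hq R.hpq R.hcrit hw0.le
    have hK := wm_le_K2 R hs2.le
    have heq : oW p q S w = low N p q (S w) := by linarith
    rw [low] at heq
    have hslope := low_slope R (one_pos.trans (o.one_lt w hwb))
      (by linarith) (by linarith)
    rw [low, ← heq] at hslope
    have hd := o.Wd_lt (C := C) R.adm rfl rfl rfl hN.le R.hpq R.hcrit hw0
    rw [show C.L (S w) = (p + 1) - (q + 1) * S w from rfl] at hd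
    have hL := o.L_pos hq hwb
    rw [sub_pos, ← mul_div_assoc, div_lt_iff₀ hL]
    linarith
  obtain ⟨x, hx, hxτ⟩ := ((o.eventually_S_lt hN2 hp hq R.hcrit
    (e := -low N p q (si N p q) / kL N p q) (div_pos (neg_pos.2 (low_si_neg R)) hk)).and
    (eventually_le_atBot (τ - 1))).exists
  have hlow : low N p q (S x) < 0 := by
    have h1 : S x < si N p q + -low N p q (si N p q) / kL N p q := hx
    rw [← sub_lt_iff_lt_add', lt_div_iff₀ hk] at h1
    simp only [low] at h1 ⊢
    linarith
  have hxτ' : x < τ := by linarith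
  linarith [key x τ hxτ' hτ (by linarith [o.W_pos hN2 hp hq R.hcrit (hxτ'.trans hτ)])]

/-- `σ₀` is not too close to `σ₂`. -/
theorem five_S0_le (o : IsOrbitExt N p q τ₀ τb S κ ε) (R : Five.Range N p q) :
    cL N p q ≤ (kL N p q + K2 N p q) * (sTwo N p q - S τ₀) := by
  have hN := R.hN
  have hN2 : 2 < N := by linarith
  have h : low N p q (S τ₀) ≤ oW p q S τ₀ := by
    have hS := (o.hasDerivAt_S R.hq o.τ₀_lt_τb).continuousAt
    have hl : ContinuousAt (fun t => low N p q (S t)) τ₀ :=
      ((hS.sub continuousAt_const).const_mul _).add continuousAt_const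
    refine le_of_tendsto_of_tendsto (hl.tendsto.mono_left (nhdsWithin_le_nhds (s := Iio τ₀)))
      ((o.hasDerivAt_W o.τ₀_lt_τb).continuousAt.tendsto.mono_left
        (nhdsWithin_le_nhds (s := Iio τ₀))) ?_
    filter_upwards [self_mem_nhdsWithin] with t ht
    exact (o.five_low R ht).le
  rw [o.W_τ₀ (by linarith) R.hp R.hq, low] at h
  have := wm_le_K2 R (o.S_lt_s2 hN2 R.hp R.hq R.hpq R.hcrit le_rfl).le
  linarith

/-- **The box after `τ₀`.** -/
theorem five_ext (o : IsOrbitExt N p q τ₀ τb S κ ε) (R : Five.Range N p q)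
    (hS0 : si N p q + e0 N p q * rb N p q ≤ S τ₀)
    (hW0 : oW p q S τ₀ ≤ Five.U N p q (S τ₀)) {x : ℝ}
    (hx : x ∈ Ioc τ₀ (Real.log (tb p q))) :
    S τ₀ < S x ∧ S x < sTwo N p q ∧ wm N p q (S x) < oW p q S x ∧
      oW p q S x < Five.top N p q (S x) ∧ κ x < 0 ∧
      (S x - tb p q) / oV p q S x ≤ κ x := by
  have hN := R.hN
  have hN' := R.hN'
  have hT := R.one_lt
  have hN2 : 2 < N := by linarith
  have hh : 0 < N - 2 := by linarith
  have hp := R.hp
  have hq := R.hq
  have hWτ := o.W_τ₀ (by linarith) hp hq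
  have hWpos := o.W_τ₀_pos hN2 hp hq R.hpq R.hcrit
  have hS02 : S τ₀ < sTwo N p q := o.S_lt_s2 hN2 hp hq R.hpq R.hcrit le_rfl
  have hS1 := o.one_lt τ₀ o.τ₀_lt_τb
  have hST : S τ₀ < tb p q := o.lt_tb τ₀ o.τ₀_lt_τb
  have hAr : 0 < aA N p q * rb N p q := mul_pos (aA_pos R) (rb_pos R)
  set B := max (bF N p q) (oW p q S τ₀) with hB
  set W1 := 5001 / 5000 * B with hW1
  have hB0 : 0 < B := (bF_le R).1.trans_le (le_max_left _ _)
  have hW10 : 0 < W1 := by positivity
  have hBle : B ≤ 2925 / 10000 * aA N p q * rb N p q :=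
    max_le (bF_le R).2 (hW0.trans (U_le R hS0))
  have hbW : bF N p q ≤ W1 := by
    rw [hW1]; linarith [le_max_left (bF N p q) (oW p q S τ₀)]
  have hWtop : W1 < 34 / 100 * aA N p q * rb N p q := by rw [hW1]; linarith
  have hgap := gap_lt R hS0
  have hq1 := R.hq1
  set H : ℝ → ℝ := fun s => (q + 1) / W1 * (tb p q * s - s ^ 2 / 2) with hH
  have box := o.extension_box (C := Five.par N p q) R.adm rfl rfl rfl hN.le R.hpq R.hcrit
    (Ub := fun _ => W1) (Ub' := fun _ => 0) (H := H)
    (H' := fun s => (q + 1) / W1 * (tb p q - s)) (fun s _ => hasDerivAt_const s W1)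
    (by rw [hW1]; linarith [le_max_right (bF N p q) (oW p q S τ₀)]) (fun s hs => ?_) (fun s hs => ?_)
    (fun s _ => ?_) (fun s hs => ?_) ?_ hx
  · obtain ⟨b1, b2, b3, b4, b5, b6⟩ := box
    refine ⟨b1, b2, b3, b4.trans_le (hWtop.le.trans (top_ge R (by linarith) ?_)), b5, b6⟩
    linarith [five_r_lt R]
  · -- region
    have hs0 : 1 < s := hS1.trans_le hs.1
    have hwm := wm_nonneg_of_le hN2 hq (by linarith) hs.2
    have hq2 : 1 ≤ q := by
      have e : (q + 1) * ((N - 2) * tb p q) = N * (1 + tb p q) := by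
        rw [hq1, div_mul_cancel₀ _ (by positivity)]
      have : 2 * ((N - 2) * tb p q) ≤ (q + 1) * ((N - 2) * tb p q) := by
        rw [e]; nlinarith [R.lt_two]
      linarith [le_of_mul_le_mul_right this (by positivity)]
    have h1 : W1 ≤ 3 / 10 := by
      have ha : aA N p q ≤ 77 / 100 := by
        rw [aA]
        have : 2 / (N - 2) ≤ 67 / 100 := by rw [div_le_iff₀ hh]; linarith
        linarith [R.lt_two]
      have hsi : 1 ≤ si N p q := le_max_left _ _
      have hr : rb N p q ≤ 1 := by linarith [si_add_rb_lt R, R.lt_two]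
      nlinarith [mul_le_mul ha hr (rb_pos R).le (by norm_num)]
    show (N + 2) * (W1 - wm N p q s) ≤ 2 * q * s * (s + (p + 1) / (q + 1))
    have h2 : (1 : ℝ) * 1 * 2 ≤ q * s * (s + (p + 1) / (q + 1)) := by
      have : 1 < (p + 1) / (q + 1) := hT
      exact mul_le_mul (mul_le_mul hq2 hs0.le zero_le_one (by linarith)) (by linarith) zero_le_two
        (by positivity)
    nlinarith
  · -- slope
    have hs0 : 0 < s := by linarith [hs.1]
    show (Five.par N p q).Wd s W1 ≤ 0 * W1
    have hphi : linePhi N (tb p q) 0 s (W1 / s) ≤ 0 := by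
      rw [sTwo_eq R] at hs hgap
      rcases lt_or_ge ((N - 2) * tb p q) N with h | h
      · obtain ⟨y, -, b, ef, -, er⟩ := baseL R h
        exact ud_phi ud_L b hN.le hT (by norm_num : (0 : ℝ) < 1000) ef er
          (top := 34 / 100 * aA N p q * rb N p q) bF_eq (by rw [aA]) hs0
          (by linarith [hs.1]) hs.2 hbW hWtop
      · obtain ⟨y, fv, -, hf, b, ef, -, er⟩ := baseG R h
        exact ud_phi ud_G b hN.le hT hf ef er
          (top := 34 / 100 * aA N p q * rb N p q) bF_eq (by rw [aA]) hs0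
          (by linarith [hs.1]) hs.2 hbW hWtop
    have hid := Wd_line (Five.par N p q) (T := tb p q) hN2 hq (by linarith)
      (show (N - 2) * (p + 1) = N * (1 + tb p q) by rw [R.hp1, mul_div_cancel₀ _ hh.ne'])
      (show (q + 1) * tb p q = p + 1 by rw [tb, mul_div_cancel₀ _ (by linarith)])
      hs0 0 (W1 / s)
    rw [mul_div_cancel₀ _ hs0.ne', show (Five.par N p q).N = N from rfl, zero_mul, sub_zero] at hid
    rw [zero_mul]
    exact nonpos_of_mul_nonpos_left (hid ▸ mul_nonpos_of_nonneg_of_nonpos hs0.le hphi)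
      (by positivity)
  · exact ((((hasDerivAt_id s).const_mul (tb p q)).sub
      (((hasDerivAt_id s).pow 2).div_const 2)).const_mul ((q + 1) / W1)).congr_deriv
      (by simp only [id]; push_cast; ring)
  · have hsT : s ≤ tb p q := hs.2.trans (by linarith [five_r_lt R, si_add_rb_lt R])
    refine ⟨mul_nonneg (by positivity) (by linarith), le_of_eq ?_⟩
    show (q + 1) / W1 * (tb p q - s) * W1 = (p + 1) - (q + 1) * s
    have e : (q + 1) * tb p q = p + 1 := by rw [tb, mul_div_cancel₀ _ (by linarith)]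
    field_simp
    linear_combination e
  · -- the logarithm
    set s := S τ₀
    set T := tb p q with hTd
    set S2 := sTwo N p q with hS2
    have hs : 0 < s := by linarith
    show Real.log (T / s) < H S2 - H s
    have hlog := log_lt_pade ((one_lt_div hs).2 hST)
    have key : W1 * ((N - 2) * T) * ((T - s) * (T + 5 * s))
        ≤ N * (1 + T) * (S2 - s) * (2 * T - s - S2) * (s * (2 * T + s)) := by
      rw [hS2, sTwo_eq R, ← hTd]
      rcases le_total (oW p q S τ₀) (bF N p q) with hc | hc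
      · rw [hW1, hB, max_eq_left hc]
        have hlo := o.five_S0_le R
        rw [sTwo_eq R] at hlo
        rw [hS2, sTwo_eq R] at hgap
        rcases lt_or_ge ((N - 2) * T) N with h | h
        · obtain ⟨y, -, b, -⟩ := baseL R h
          exact g_ineq g_L b hN.le (by linarith) hT kL_eq cL_eq (K2_eq R) bF_eq hlo hgap
        · obtain ⟨y, fv, -, -, b, -⟩ := baseT R h
          exact g_ineq g_G b hN.le (by linarith) hT kL_eq cL_eq (K2_eq R) bF_eq hlo hgap
      · rw [hW1, hB, max_eq_right hc, hWτ, wm_eq R, sTwo_eq R, hq1, ← hTd]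
        have hf := f_point R hS0 (s := s) (by linarith [five_r_lt R])
        rw [← hTd] at hf
        refine le_of_mul_le_mul_right ?_ (show 0 < N + 2 by linarith)
        have e : N * (N * (1 + T) / ((N - 2) * T)) * ((N - 2) * T) = N ^ 2 * (1 + T) := by
          field_simp
        have h0 : 0 ≤ lineS2 N T - s := by rw [← sTwo_eq R]; linarith
        have := mul_le_mul_of_nonneg_left hf h0
        rw [div_mul_eq_mul_div, mul_div_assoc']
        field_simp
        linarith [e]
    refine hlog.trans_le ?_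
    have e1 : (T / s - 1) * (T / s + 5) / (2 * (2 * (T / s) + 1))
        = (T - s) * (T + 5 * s) / (2 * (s * (2 * T + s))) := by field_simp
    have e2 : H S2 - H s = (q + 1) * ((S2 - s) * (2 * T - s - S2)) / (2 * W1) := by
      simp only [hH]; field_simp; ring
    have hq' : (q + 1) * ((N - 2) * T) = N * (1 + T) := by
      rw [hq1, div_mul_cancel₀ _ (by positivity)]
    rw [e1, e2, div_le_div_iff₀ (by positivity) (by positivity)]
    refine le_of_mul_le_mul_right ?_ (show 0 < (N - 2) * T by positivity)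
    rw [← hq'] at key
    linarith

end IsOrbitExt

end Vale.Agent.P100T
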