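import Vale.Agent.P100T.Five.Upper
import Vale.Agent.P100T.Five.LowExt
import Vale.Agent.P100T.Cases
import Vale.Agent.P100T.Scalar
import Vale.Agent.P100T.OrbitCurve
import Vale.Agent.P100C.Five

/-!
The Lane–Emden conjecture in dimension five: a certificate for every critical triple
`(N, p, q)`, `5 < N < 5.17`, of the strip left by `P100C.Five`, and the case split.
-/

open Set Filter Topology

noncomputable section

namespace Vale.Agent.P100T.Five

open Vale.Agent.P100

variable {N p q s W z : ℝ}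

lemma par_rho_affine (C : CPar) (hG : C.G = 0) (z₁ lam : ℝ) :
    C.rho s W (lam * z₁) = (1 - lam) * C.rho s W 0 + lam * C.rho s W z₁ := by
  simp only [CPar.rho, CPar.kz, CPar.c', hG]
  ring

lemma rho_pos_between (C : CPar) (hG : C.G = 0) {z₁ : ℝ} (h0 : 0 < C.rho s W 0)
    (h1 : 0 < C.rho s W z₁) (h : ∃ lam, 0 ≤ lam ∧ lam ≤ 1 ∧ z = lam * z₁) :
    0 < C.rho s W z := by
  obtain ⟨lam, l0, l1, rfl⟩ := h
  rw [par_rho_affine C hG]
  rcases l1.eq_or_lt with rfl | l1
  · simpa using h1
  · exact add_pos_of_pos_of_nonneg (mul_pos (by linarith) h0) (mul_nonneg l0 h1.le)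

lemma U_lt_top (R : Range N p q) (h0 : si N p q < s) : U N p q s < top N p q s := by
  have hr := rb_pos R
  refine mul_lt_mul_of_pos_left ?_ (mul_pos (aA_pos' R) (by linarith))
  have : 0 < (s - si N p q) / rb N p q := div_pos (by linarith) hr
  linarith

lemma l_eq_par (R : Range N p q) (hs : 0 < s) : (par N p q).l s W
    = ((p + 1) * s - (s * (s - 1) + W)) / (s + tb p q) := by
  have := R.hq
  have := R.hp
  simp only [par, TailFive.par, CPar.l, CPar.K, CPar.V, tb]
  field_simp
  ring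

/-- The orbit strictly satisfies the inequalities up to `log T`. -/
theorem strict (R : Range N p q) {τ₀ τb : ℝ} {S κ ε : ℝ → ℝ}
    (o : IsOrbitExt N p q τ₀ τb S κ ε) {τ : ℝ} (hτ : τ ≤ Real.log (tb p q)) :
    CPar.Strict (par N p q) (S τ) (oW p q S τ) (κ τ) := by
  have hN := R.hN
  have hN2 : 2 < N := by linarith
  have hp := R.hp
  have hq := R.hq
  have hr := rb_pos R
  have hG : (par N p q).G = 0 := rfl
  have hτb : τ < τb := hτ.trans_lt o.lt_τb
  have hs1 := o.one_lt τ hτb
  have hL := o.L_pos hq hτb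
  have heq := o.eqV hτb
  simp only [oV] at heq
  have hsi : si N p q = max 1 (sEq N p q) := rfl
  rcases le_or_gt τ τ₀ with h | h
  · have h0 := o.five_si_lt R h
    have h1 := o.five_lt_rb R h
    have hle : oW p q S τ ≤ wm N p q (S τ) ∧ oW p q S τ ≤ U N p q (S τ) ∧ 0 < oW p q S τ := by
      rcases h.eq_or_lt with rfl | hlt
      · exact ⟨(o.W_τ₀ (by linarith) hp hq).le, o.five_W_τ₀_le_U R,
          o.W_τ₀_pos hN2 hp hq R.hpq R.hcrit⟩
      · exact ⟨(o.W_lt_wm hN2 hp hq R.hpq R.hcrit hlt).le, o.five_oW_le_U R hlt,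
          o.W_pos hN2 hp hq R.hcrit hlt⟩
    obtain ⟨hwm, hU, hW⟩ := hle
    have b := box_pre R h0 h1 hW (hU.trans_lt (U_lt_top R h0))
    have hV : 0 < oW p q S τ + S τ * (S τ - 1) := by nlinarith
    have hk0 : 0 ≤ κ τ := by
      rcases h.eq_or_lt with rfl | hlt
      · exact o.κ_zero.ge
      · exact (o.κ_pos τ hlt).le
    have hk1 : κ τ * (oW p q S τ + S τ * (S τ - 1)) ≤ S τ := by
      rw [heq]; linarith [Real.exp_pos τ]
    have hwmle : wm N p q (S τ) ≤ S τ * ((p + 1) - (q + 1) * S τ) := by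
      rw [wm, div_le_iff₀ (by linarith)]
      nlinarith [mul_pos (show 0 < S τ by linarith) (sub_pos.2 hs1),
        mul_pos (show 0 < S τ by linarith) hL]
    refine ⟨b.h2, b.h3, rho_pos_between _ hG b.h0 b.hs
      ⟨κ τ * (oW p q S τ + S τ * (S τ - 1)) / S τ, div_nonneg (mul_nonneg hk0 hV.le) (by linarith),
        (div_le_one (by linarith)).2 hk1, ?_⟩, ?_⟩
    · simp only [CPar.V]
      have : S τ * (S τ - 1) + oW p q S τ ≠ 0 := by linarith
      have : S τ ≠ 0 := by linarith
      field_simp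
      ring
    · rw [l_eq_par R (by linarith)]
      have : 0 ≤ ((p + 1) * S τ - (S τ * (S τ - 1) + oW p q S τ)) / (S τ + tb p q) :=
        div_nonneg (by nlinarith [mul_pos (mul_pos hq (one_pos.trans hs1)) (one_pos.trans hs1)])
          (by linarith [R.one_lt])
      have := mul_nonneg this hk0
      linarith
  · obtain ⟨hS0, hS2, hWw, hWt, hk, hk1⟩ := o.five_ext R (o.five_e0_le R) (o.five_W_τ₀_le_U R) ⟨h, hτ⟩
    have h1 := hS2.trans (sTwo_lt R)
    have he : 85 / 100 ≤ e0 N p q := by
      rw [e0]; split_ifs <;> linarith [R.lt_two]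
    have h0' : si N p q + 85 / 100 * rb N p q ≤ S τ := by
      nlinarith [o.five_e0_le R, mul_le_mul_of_nonneg_right he hr.le]
    have h0 : si N p q < S τ := by nlinarith
    have hW : 0 < oW p q S τ :=
      (IsOrbitExt.wm_nonneg_of_le hN2 hq (by linarith) hS2.le).trans_lt hWw
    have b := box_pre R h0 h1 hW hWt
    have bp := box_post R h0' h1 hW hWt
    have hV : 0 < oW p q S τ + S τ * (S τ - 1) := by nlinarith
    simp only [oV] at hk1
    change (S τ - tb p q) / _ ≤ κ τ at hk1
    have hsT : S τ < tb p q := o.lt_tb τ hτb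
    rw [div_le_iff₀ hV] at hk1
    have hw : 2 * (oW p q S τ + S τ * (S τ - 1)) > S τ * ((p + 1) - (q + 1) * S τ) := by
      rw [wm, div_lt_iff₀ (by linarith)] at hWw
      nlinarith [mul_pos (mul_pos (show 0 < S τ by linarith) hL) (sub_pos.2 R.hN),
        mul_pos (show 0 < S τ by linarith) (sub_pos.2 hs1)]
    refine ⟨b.h2, b.h3, rho_pos_between _ hG b.h0 bp
      ⟨κ τ * (oW p q S τ + S τ * (S τ - 1)) / (S τ - tb p q),
        div_nonneg_of_nonpos (mul_nonpos_of_nonpos_of_nonneg hk.le hV.le) (by linarith),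
        (div_le_one_of_neg (by linarith)).2 hk1, ?_⟩, ?_⟩
    · simp only [CPar.V]
      have : S τ * (S τ - 1) + oW p q S τ ≠ 0 := by linarith
      have : S τ - tb p q ≠ 0 := by linarith
      field_simp
      ring
    · rw [l_eq_par R (by linarith)]
      set V := oW p q S τ + S τ * (S τ - 1) with hVd
      rw [show S τ * (S τ - 1) + oW p q S τ = V by ring]
      have hsp : 0 < S τ + tb p q := by linarith
      rcases le_or_gt ((p + 1) * S τ - V) 0 with hl | hl
      · have := mul_nonneg_of_nonpos_of_nonpos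
          (div_nonpos_of_nonpos_of_nonneg hl hsp.le) hk.le
        linarith
      · have hpq : p + 1 = tb p q * (q + 1) := by
          rw [tb, div_mul_cancel₀ _ (by linarith : q + 1 ≠ 0)]
        have key : 0 < (S τ + tb p q) * V + ((p + 1) * S τ - V) * (S τ - tb p q) := by
          have := mul_lt_mul_of_pos_left hw (show 0 < tb p q by linarith)
          rw [hpq] at this ⊢
          linarith
        have h2 := mul_le_mul_of_nonneg_left hk1 hl.le
        rw [div_mul_eq_mul_div, ← sub_neg_eq_add, sub_pos, ← neg_div, div_lt_iff₀ hsp]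
        nlinarith

/-- **A certificate in the strip.** -/
theorem hasCertificate (R : Range N p q) : HasCertificate N p q := by
  have hN := R.hN
  have hN5 : N ≤ 26 / 5 := by linarith [R.hN']
  obtain ⟨τ₀, τb, S, κ, ε, o⟩ :=
    exists_orbit_ext (show (2:ℝ) < N by linarith) R.hp R.hq R.hpq R.hcrit
  have hT := R.one_lt
  have hm : 0 ≤ mW p q := div_nonneg (by linarith) (by linarith)
  have hM : (N - 4) / N ≤ (par N p q).M := by
    have : 0 < p + 1 := by linarith [R.hp]
    have : 0 < N - 2 := by linarith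
    have : 0 ≤ (1 + mW p q) * (2 / ((N - 2) * (p + 1))) :=
      mul_nonneg (by linarith) (by positivity)
    simp only [par, TailFive.par]
    linarith
  have hs : ∀ᶠ τ in atBot, S τ = S τ ∧ oW p q S τ = orbW S (fun y => (κ y)⁻¹) τ
      ∧ κ τ = 1 / (κ τ)⁻¹ := by
    filter_upwards [eventually_lt_atBot τ₀] with x hx
    refine ⟨rfl, ?_, by rw [one_div, inv_inv]⟩
    have h := o.eqV (hx.trans o.τ₀_lt_τb)
    rw [orbW, ← h, inv_mul_cancel_left₀ (o.κ_pos x hx).ne', oV]
    ring
  have hW : ∀ τ ≤ τ₀ - 1, 0 ≤ orbW S (fun y => (κ y)⁻¹) τ := fun x hx => by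
    have hx0 : x < τ₀ := by linarith
    have h := o.eqV (hx0.trans o.τ₀_lt_τb)
    rw [orbW, ← h, inv_mul_cancel_left₀ (o.κ_pos x hx0).ne', oV, add_sub_cancel_right]
    exact o.W_nonneg (by linarith) R.hp R.hq R.hcrit hx0
  have ht : TailCert (par N p q) S (oW p q S) κ := by
    rcases le_or_gt ((N - 2) * tb p q) N with h | h
    · refine TailFive.cert_le o.below hN.le hN5 R.hp R.hq R.hcrit R.hpq.le hm le_rfl
        (sub_one_lt τ₀) hW hs ?_ (by rw [c1, if_pos h])
      rw [tb, mul_div_assoc', div_le_iff₀ (by linarith [R.hq])] at h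
      linarith
    · refine TailFive.cert_gt o.below hN.le hN5 R.hp R.hq R.hcrit R.lt_two.le hm le_rfl
        (sub_one_lt τ₀) hW hs ?_ (by rw [c1, if_neg (not_le.2 h)])
      rw [tb, mul_div_assoc', lt_div_iff₀ (by linarith [R.hq])] at h
      linarith
  exact ⟨par N p q, rfl, rfl, rfl, hM, τ₀, τb, S, oW p q S, κ,
    o.isCurve (by linarith) R.hp R.hq rfl rfl rfl, o.lt_τb, fun τ hτ => strict R o hτ, ht.1, ht.2⟩

/-- The parameters of the strip lie in `Range`. -/
lemma range_of_strip {p q : ℝ} (hq : 1 < q) (hpq : q < p)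
    (hsub : 3 / 5 < 1 / (p + 1) + 1 / (q + 1)) (hstrip : 1 / (p + 1) + 1 / (q + 1) < 317 / 517)
    (hcor : 2 ≤ p * (q - 1)) : Range (critN p q) p q := by
  have hp : 0 < p := by linarith
  have hpq1 : 1 < p * q := by nlinarith
  set N := critN p q
  have hspec : N * ((p + 1) * (q + 1) - (p + 1) - (q + 1)) = 2 * (p + 1) * (q + 1) :=
    critN_spec hpq1
  have e : N / (p + 1) + N / (q + 1) = N - 2 := by
    field_simp
    linarith
  have hsum : (1 / (p + 1) + 1 / (q + 1)) * N = N - 2 := by rw [← e]; ring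
  have h5 : (5 : ℝ) < N := by
    refine lt_critN hp (by linarith) hpq1 ?_
    have : (5 : ℝ) / (p + 1) + 5 / (q + 1) = 5 * (1 / (p + 1) + 1 / (q + 1)) := by ring
    linarith
  have h17 : N < 517 / 100 := by
    have := mul_lt_mul_of_pos_right hstrip (show 0 < N by linarith)
    linarith
  have hT1 : 1 < tb p q := by rw [tb, one_lt_div (by linarith)]; linarith
  have hh : N - 2 ≠ 0 := by linarith
  have hp1 : (N - 2) * (p + 1) = N * (1 + tb p q) := crit_iff hp (by linarith) e
  refine ⟨h5, h17, by linarith, hpq, e, ?_⟩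
  set T := tb p q with hT
  have hqT : (q + 1) * T = p + 1 := by rw [hT, tb, mul_div_cancel₀ _ (by linarith : q + 1 ≠ 0)]
  have hpe : p * (N - 2) = 2 + N * T := by linarith
  have hqe : (q - 1) * ((N - 2) * T) = N - (N - 4) * T := by
    linear_combination (N - 2) * hqT + hp1
  have hpoly : 2 * (N - 2) ^ 2 * T ≤ (2 + N * T) * (N - (N - 4) * T) := by
    rw [← hpe, ← hqe]
    have := mul_le_mul_of_nonneg_right hcor
      (show 0 ≤ (N - 2) ^ 2 * T from mul_nonneg (sq_nonneg _) (by linarith))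
    linarith
  by_contra hle
  push Not at hle
  obtain ⟨x, hN⟩ : ∃ x, N = 5 + x := ⟨N - 5, by ring⟩
  rw [hN] at hle hpoly h5 h17
  rw [show (5:ℝ) + x - 5 = x by ring] at hle
  set Te := 2 - 169 / 100 * x with hTe
  have h1 : (2 + (5 + x) * Te) * ((5 + x) - ((5 + x) - 4) * Te) - 2 * ((5 + x) - 2) ^ 2 * Te
      < 0 := by
    rw [hTe]
    nlinarith [mul_pos (show 0 < x by linarith) (show 0 < 517 / 100 - 5 - x by linarith),
      pow_pos (show 0 < x by linarith) 3]
  nlinarith [mul_nonneg (sub_nonneg.2 hle) (show 0 ≤ Te - 1 by rw [hTe]; linarith),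
    mul_nonneg (sub_nonneg.2 hle) (show 0 ≤ x by linarith),
    mul_nonneg (mul_nonneg (sub_nonneg.2 hle) (show 0 ≤ x by linarith))
      (show 0 ≤ T + Te by linarith), mul_nonneg (sub_nonneg.2 hle) (sub_nonneg.2 hle)]

/-- **The Lane–Emden conjecture in dimension five.** -/
theorem no_solution_five_full {p q : ℝ} (hp : 0 < p) (hq : 0 < q)
    (hsub : 3 / 5 < 1 / (p + 1) + 1 / (q + 1)) :
    ¬ ∃ u v : Euc 5 → ℝ, IsPositiveEntireSolution p q u v := by
  have main : ∀ p q : ℝ, 0 < q → q ≤ p → 3 / 5 < 1 / (p + 1) + 1 / (q + 1) →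
      ¬ ∃ u v : Euc 5 → ℝ, IsPositiveEntireSolution p q u v := by
    intro p q hq hle hsub
    by_cases h : 317 / 517 ≤ 1 / (p + 1) + 1 / (q + 1) ∨ p * (q - 1) < 2
    · exact P100C.Five.no_solution_ordered hq hle hsub h
    push Not at h
    obtain ⟨hstrip, hcor⟩ := h
    have hq1 : 1 < q := by nlinarith
    rcases hle.eq_or_lt with rfl | hlt
    · refine no_solution_diag le_rfl hq1 ?_
      rw [← add_div, lt_div_iff₀ (by linarith)] at hsub
      norm_num
      linarith
    have R := range_of_strip hq1 hlt hsub hstrip hcor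
    have hc := critN_spec (show 1 < p * q by nlinarith)
    exact (hasCertificate R).no_solution le_rfl (by exact_mod_cast R.hN) R.hp hq hle hc
  rcases le_total q p with h | h
  · exact main p q hq h hsub
  · rintro ⟨u, v, hs⟩
    exact main q p hp h (by linarith) ⟨v, u, hs.swap⟩

end Vale.Agent.P100T.Five
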