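import Vale.Agent.P100T.BarrierPoly

/-!
Polynomials in one more variable with coefficients in `PosCheck.Ex`, as lists of coefficients, and
their Bernstein form on an interval: if every coefficient of `bernL lo hi td l` has nonnegative
coefficients then the polynomial is nonnegative for arguments between `lo/td` and `hi/td`.
-/

noncomputable section

namespace Vale.Agent.P100T.Five

open PosCheck UpperCert

/-- Sum of coefficient lists. -/
def padd : List Ex → List Ex → List Ex
  | [], l => l
  | a :: k, [] => a :: k
  | a :: k, b :: l => (a + b) :: padd k l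

/-- Scalar multiple of a coefficient list. -/
def psc (a : Ex) (l : List Ex) : List Ex := l.map (a * ·)

/-- Negation of a coefficient list. -/
def pneg (l : List Ex) : List Ex := l.map (c 0 - ·)

/-- Product of coefficient lists. -/
def pmul : List Ex → List Ex → List Ex
  | [], _ => []
  | a :: k, l => padd (psc a l) (c 0 :: pmul k l)

/-- Powers of `[td, td]`, i.e. of `td (1 + u)`. -/
def ppow (td : Ex) : ℕ → List Ex
  | 0 => [c 1]
  | n + 1 => pmul [td, td] (ppow td n)

/-- The coefficients in `u` of `(td (1 + u))^deg · P ((lo + hi u) / (td (1 + u)))`. -/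
def bernL (lo hi td : Ex) : List Ex → List Ex
  | [] => []
  | a :: l => padd (psc a (ppow td l.length)) (pmul [lo, hi] (bernL lo hi td l))

/-- All coefficients pass the test, the first one after subtracting `m`. -/
def checkAll (m : Ex) : List Ex → Bool
  | [] => false
  | a :: l => check (a - m) && l.all check

section eval

variable (x y z : ℝ)

/-- Value of a coefficient list at `w`. -/
def pe : List Ex → ℝ → ℝ
  | [], _ => 0
  | a :: l, w => a.eval x y z + w * pe l w

variable {x y z} {w : ℝ}

@[simp] lemma pe_nil : pe x y z [] w = 0 := rfl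
@[simp] lemma pe_cons (a : Ex) (l : List Ex) :
    pe x y z (a :: l) w = a.eval x y z + w * pe x y z l w := rfl

@[simp] lemma pe_padd : ∀ k l : List Ex,
    pe x y z (padd k l) w = pe x y z k w + pe x y z l w
  | [], l => by simp [padd]
  | a :: k, [] => by simp [padd]
  | a :: k, b :: l => by simp [padd, pe_padd k l]; ring

@[simp] lemma pe_psc (a : Ex) : ∀ l : List Ex,
    pe x y z (psc a l) w = a.eval x y z * pe x y z l w
  | [] => by simp [psc]
  | b :: l => by
    have := pe_psc a l
    simp only [psc, List.map_cons, pe_cons, eval_mul'] at this ⊢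
    rw [this]; ring

@[simp] lemma pe_pneg : ∀ l : List Ex, pe x y z (pneg l) w = -pe x y z l w
  | [] => by simp [pneg]
  | b :: l => by
    have := pe_pneg l
    simp only [pneg, List.map_cons, pe_cons, eval_sub', eval_c] at this ⊢
    rw [this]; push_cast; ring

@[simp] lemma pe_pmul : ∀ k l : List Ex,
    pe x y z (pmul k l) w = pe x y z k w * pe x y z l w
  | [], l => by simp [pmul]
  | a :: k, l => by simp [pmul, pe_pmul k l]; ring

lemma pe_ppow (td : Ex) : ∀ n : ℕ,
    pe x y z (ppow td n) w = (td.eval x y z * (1 + w)) ^ n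
  | 0 => by simp [ppow]
  | n + 1 => by simp [ppow, pe_ppow td n]; ring

lemma pe_bernL {lo hi td : Ex} (hd : td.eval x y z * (1 + w) ≠ 0) : ∀ l : List Ex,
    (td.eval x y z * (1 + w)) * pe x y z (bernL lo hi td l) w
      = (td.eval x y z * (1 + w)) ^ l.length
        * pe x y z l ((lo.eval x y z + hi.eval x y z * w) / (td.eval x y z * (1 + w)))
  | [] => by simp [bernL]
  | a :: l => by
    have := pe_bernL (lo := lo) (hi := hi) hd l
    simp only [bernL, pe_padd, pe_psc, pe_ppow, pe_pmul, pe_cons, pe_nil, List.length_cons,
      pow_succ]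
    generalize td.eval x y z * (1 + w) = D at *
    generalize pe x y z (bernL lo hi td l) w = B at *
    generalize pe x y z l ((lo.eval x y z + hi.eval x y z * w) / D) = P at *
    field_simp
    linear_combination (lo.eval x y z + hi.eval x y z * w) * this

lemma pe_nonneg (hx : 0 ≤ x) (hy : 0 ≤ y) (hz : 0 ≤ z) (hw : 0 ≤ w) : ∀ l : List Ex,
    l.all check = true → 0 ≤ pe x y z l w
  | [], _ => le_rfl
  | a :: l, h => by
    simp only [List.all_cons, Bool.and_eq_true] at h
    exact add_nonneg (nonneg_of_check h.1 hx hy hz) (mul_nonneg hw (pe_nonneg hx hy hz hw l h.2))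

/-- Positivity of `P` at a point of the interval. -/
theorem pos_of_checkAll {lo hi td m : Ex} {l : List Ex}
    (h : checkAll m (bernL lo hi td l) = true) (hx : 0 ≤ x) (hy : 0 ≤ y) (hz : 0 ≤ z) (hw : 0 ≤ w)
    (hm : 0 < m.eval x y z) (hd : 0 < td.eval x y z) {v : ℝ}
    (hv : v * (td.eval x y z * (1 + w)) = lo.eval x y z + hi.eval x y z * w) :
    0 < pe x y z l v := by
  have hD : 0 < td.eval x y z * (1 + w) := mul_pos hd (by linarith)
  have key := pe_bernL (lo := lo) (hi := hi) hD.ne' l
  rw [← hv, mul_div_cancel_right₀ _ hD.ne'] at key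
  generalize bernL lo hi td l = B at *
  match B, h with
  | a :: B, h =>
    simp only [checkAll, Bool.and_eq_true] at h
    have h1 := nonneg_of_check h.1 hx hy hz
    rw [eval_sub'] at h1
    have h2 := mul_nonneg hw (pe_nonneg hx hy hz hw B h.2)
    rw [pe_cons] at key
    exact pos_of_mul_pos_right (key ▸ mul_pos hD (by linarith)) (pow_pos hD _).le

end eval

end Vale.Agent.P100T.Five
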