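import Vale.Agent.P100T.Five.Poly

/-!
Numerators of the strict conditions of the certificate, as polynomials in `W` over `PosCheck.Ex`:
`N = Nn/m`, `N - 2 = H/m`, `σ = S/D`, `T = T'/D`, `W = W'/D²`, `c = Cn/Cd`, `w = wn/wd`.
-/

namespace Vale.Agent.P100T.Five

open PosCheck UpperCert

variable (Nn m H D S T Cn Cd wn wd : Ex)

def vV : List Ex := [S * (S - D), c 1]
def dD : Ex := T * T - S * S
/-- `a · (H (T² - S²) wd)`. -/
def nA : List Ex :=
  [(Nn - c 4 * m) * dD S T * wd - (S - D) * (Nn * S - H * T) * wd + c 2 * m * wn * D * (S + T),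
    c 0 - c 2 * H * wd]
def dA : Ex := H * dD S T * wd
/-- `-(ce)`. -/
def nE : List Ex :=
  [(Nn - m) * (Nn * (D + T) * T + H * (S * (S - D))), (Nn - m) * H]
/-- `ce - c`. -/
def nd : List Ex :=
  padd (pneg (psc Cd (nE Nn m H D S T))) [c 0 - Cn * Nn * H * (S + T) * (S + T)]
/-- `a + 2 c`. -/
def nA2 : List Ex :=
  padd (psc Cd (nA Nn m H D S T wn wd)) [c 2 * Cn * dA H S T wd]
def nP2 : List Ex :=
  padd (psc (c 4 * Nn * Cn * Cd * dA H S T wd)
      (padd (nA Nn m H D S T wn wd) [c 0 - dA H S T wd]))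
    (pneg (psc (Nn - m) (pmul (nA2 Nn m H D S T Cn Cd wn wd) (nA2 Nn m H D S T Cn Cd wn wd))))
def nP1 : List Ex :=
  padd (pneg (psc (Nn - m) (pmul (vV D S) (nA2 Nn m H D S T Cn Cd wn wd))))
    [c 0, wd * Nn * (Cn * (c 3 * T - S) * (S + T) * H + (Nn - m) * (D + T) * T * Cd)]
/-- The discriminant. -/
def nDisc : List Ex :=
  padd (pmul (nP2 Nn m H D S T Cn Cd wn wd) (pmul (vV D S) (nd Nn m H D S T Cn Cd)))
    (pneg (psc (H * Cd)
      (pmul (nP1 Nn m H D S T Cn Cd wn wd) (nP1 Nn m H D S T Cn Cd wn wd))))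
def nl : List Ex := [Nn * (D + T) * S - H * (S * (S - D)), c 0 - H]
def nAq : List Ex :=
  padd (psc (Nn * T) (nA Nn m H D S T wn wd))
    [Nn * wd * dD S T * (Nn * (D + T) - c 2 * H * T)]
/-- `rho` at `z = 0`. -/
def nR0 : List Ex :=
  padd (psc ((Nn - m) * Cd) (padd (nAq Nn m H D S T wn wd)
    (padd (pneg (psc (wd * T * (Nn + c 2 * m)) (nl Nn H D S T)))
      [wd * Nn * (Nn * (D + T) - H * T) * S * (S + T), wd * Nn * H * T])))
    (psc (c 2 * m * wd * T) (nd Nn m H D S T Cn Cd))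
/-- The slope of `rho` in `z`. -/
def nR1 : List Ex :=
  padd (pmul (nd Nn m H D S T Cn Cd) (padd (nAq Nn m H D S T wn wd)
      (padd [wd * Nn * (H * T * D + (Nn * (D + T) - H * T) * S) * (S + T)]
        (pneg (psc (c 2 * wd * T * (Nn - m)) (nl Nn H D S T))))))
    (pneg (psc (H * Cd * wd * T)
      (padd (psc (Nn - m) (pmul (padd [Nn * D * (S + T)] (pneg (nl Nn H D S T))) (nl Nn H D S T)))
        (psc Nn (pmul (nE Nn m H D S T) [c 0, c 1])))))
/-- `V rho` at `z = Z/V`, `Z = Z'/D`. -/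
def nRZ (Z : Ex) : List Ex :=
  padd (psc (H * (S + T)) (pmul (vV D S) (nR0 Nn m H D S T Cn Cd wn wd)))
    (psc Z (nR1 Nn m H D S T Cn Cd wn wd))

/-! ### The two cases and the substitutions `N ∈ [5, 5.17]`, `T`, `σ`. -/

/-- `N m`. -/
def En : Ex := c 500 * (c 1 + Ex.x) + c 17 * Ex.x
def Em : Ex := c 100 * (c 1 + Ex.x)
def Eh : Ex := En - c 2 * Em

/-- `σ∞ = 1`: `T = 1 + 2/(N-2) · y/(1+y)`. -/
def LD0 : Ex := Eh * (c 1 + Ex.y)
def LT0 : Ex := LD0 + c 2 * Em * Ex.y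
def LD (ed : Ex) : Ex := c 1000 * LD0 * ed
def LT (ed : Ex) : Ex := c 1000 * LT0 * ed
def LR : Ex := c 895 * c 2 * Em * Ex.y
def LS (en ed : Ex) : Ex := LD ed + LR * en
def LCn (ed : Ex) : Ex := c 0 - (En - Em) * LT ed
def LCd (ed : Ex) : Ex := Eh * (LD ed + LT ed)

/-- `σ∞ > 1`: `T = N/(N-2) + (2 - N/(N-2)) y/(1+y)`. -/
def GD0 : Ex := Eh * (c 1 + Ex.y)
def GT0 : Ex := En + c 2 * Eh * Ex.y
def GF : Ex := En * c 10000 * (c 1 + Ex.y)
def GD (ed : Ex) : Ex := GF * GD0 * ed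
def GT (ed : Ex) : Ex := GF * GT0 * ed
def GSi (ed : Ex) : Ex := Eh * GT0 * c 10000 * (c 1 + Ex.y) * ed
def GR : Ex := c 2 * Em * GT0 * (c 8724 + c 8283 * Ex.y)
def GS (en ed : Ex) : Ex := GSi ed + GR * en
def GCn (ed : Ex) : Ex :=
  c 0 - (c 25 * En * En * GD ed + c 7 * Eh * (Eh * GT ed - En * GD ed))
def GCd (ed : Ex) : Ex := c 50 * Eh * En * GD ed

/-- The numerator and denominator of the top `A r̄ e (1 - 66/100 e)` of the box. -/
def topN (D T R en ed : Ex) : Ex :=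
  (c 20 * Em * D + Eh * (T - D)) * (R * en) * (c 100 * ed - c 66 * en)
def topD (ed : Ex) : Ex := c 1000 * Eh * ed

def wN (D T : Ex) : Ex := c 5 * (T - D)
def wD (D T : Ex) : Ex := c 10 * D + c 7 * (T - D)

end Vale.Agent.P100T.Five
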