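import Vale.Agent.P100T.Five.Barrier
import Vale.Agent.P100T.Five.CertR
import Vale.Agent.P100T.UpperLine

/-!
`W ≤ U σ` before `τ₀` for `5 < N < 5.17`, hence the position of `σ₀`.

If `W > U σ` at some `τ`, then `t ≥ T σ` at the next crossing, `{W > U σ, t > T σ}` is invariant
backwards, and near `τ = -∞` this makes `W - U σ` decrease, against `W - U σ → 0`.
-/

open Set Filter Topology

noncomputable section

namespace Vale.Agent.P100T

open PosCheck UpperCert

namespace Five

variable {N p q s : ℝ}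

/-- `s₂ < σ∞ + rb`. -/
theorem sTwo_lt (R : Range N p q) : sTwo N p q < si N p q + rb N p q := by
  have hr := rb_pos R
  have hN := R.hN
  set s := si N p q + rb N p q with hs
  have hs1 : 1 < s := by linarith [le_max_left 1 (sEq N p q), show si N p q = max 1 (sEq N p q) from rfl]
  have hsT : s < tb p q := si_add_rb_lt R
  have he : (s - si N p q) / rb N p q = 1 := by rw [hs]; field_simp; ring
  suffices hw : wm N p q s < 0 by
    by_contra hle
    push Not at hle
    exact absurd (IsOrbitExt.wm_nonneg_of_le (by linarith) R.hq (by linarith) hle) (not_le.2 hw)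
  have key : ∀ (y : ℝ) (D S T Rr Cn Cd : Ex) (_ : 0 ≤ y)
      (g : Geo N p q s y 0 (c 1) (c 1) D S T Rr Cn Cd) {m : Ex}
      (_ : check (c 0 - nWm D S T - m) = true) (_ : 0 < m.eval (xN N) y 0),
      wm N p q s < 0 := by
    intro y D S T Rr Cn Cd hy g m hc hm0
    obtain ⟨eN, hm, eh⟩ := R.En_eval (y := y) (z := 0)
    have hp := pos_of_sub hc R.xN_pos.le hy le_rfl hm0
    have e : (nWm D S T).eval (xN N) y 0 = wm N p q s
        * (D.eval (xN N) y 0 ^ 2 * T.eval (xN N) y 0 * Eh.eval (xN N) y 0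
          * ((N + 2) * Em.eval (xN N) y 0)) := by
      have : N - 2 ≠ 0 := by linarith
      have : N + 2 ≠ 0 := by linarith
      have : tb p q ≠ 0 := by linarith [R.one_lt]
      simp only [nWm, eval_add', eval_sub', eval_mul', eval_c, eN, eh, g.S_eq, g.T_eq, wm]
      rw [R.hp1, R.hq1]
      push_cast
      field_simp
    rw [eval_sub', e, eval_c] at hp
    push_cast at hp
    by_contra hle
    push Not at hle
    have := g.D_pos
    have : 0 < T.eval (xN N) y 0 := by rw [g.T_eq]; exact mul_pos (by linarith) g.D_pos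
    have : 0 < Eh.eval (xN N) y 0 := by rw [eh]; exact mul_pos (by linarith) hm
    have : 0 ≤ wm N p q s * (D.eval (xN N) y 0 ^ 2 * T.eval (xN N) y 0 * Eh.eval (xN N) y 0
          * ((N + 2) * Em.eval (xN N) y 0)) := mul_nonneg hle (by positivity)
    linarith
  rcases lt_or_ge ((N - 2) * tb p q) N with hc | hc
  · obtain ⟨y, hy, g⟩ := geoL (z := 0) R hc (en := c 1) (ed := c 1) (s := s)
      (fun y => by simp) (fun y => by simp [he])
    exact key y _ _ _ _ _ _ hy.le g checkL_R (by simpa [Ex.eval] using hy)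
  · obtain ⟨y, hy, g⟩ := geoG (z := 0) R hc (en := c 1) (ed := c 1) (s := s)
      (fun y => by simp) (fun y => by simp [he])
    exact key y _ _ _ _ _ _ hy g checkG_R (by simp)

lemma wm_at_si_neg (R : Range N p q) :
    si N p q * (k0 N p q (si N p q) + 2 * nu N p q (si N p q) * (si N p q * (si N p q - 1))
        - (2 * si N p q - 1 + aA N p q))
      + (N + 2) / N * (si N p q * (si N p q - 1) - wm N p q (si N p q)) < 0 := by
  have hN := R.hN
  have hT := R.one_lt
  have hq := R.hq
  have hA := aA_pos' R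
  have hh : N - 2 ≠ 0 := by linarith
  have : N ≠ 0 := by linarith
  have : N + 2 ≠ 0 := by linarith
  have ht : tb p q ≠ 0 := by linarith
  have hpp : p + 2 = N * (1 + tb p q) / (N - 2) + 1 := by linarith [R.hp1]
  rw [si, R.sEq_eq]
  simp only [k0, nu, wm, ← show tb p q = (p + 1) / (q + 1) from rfl]
  rw [hpp, R.hp1, R.hq1]
  set T := tb p q
  rcases le_or_gt ((N - 2) * T / N) 1 with h | h
  · rw [max_eq_left h]
    have : 1 + T ≠ 0 := by linarith
    have key : N * (1 + T) / ((N - 2) * T) < 1 + 2 * (N - 1) / (N - 2) + aA N p q := by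
      have : N * (1 + T) / ((N - 2) * T) ≤ 2 * N / (N - 2) := by
        rw [div_le_div_iff₀ (mul_pos (by linarith) (by linarith)) (by linarith)]
        nlinarith [mul_pos (sub_pos.2 hT) (mul_pos (show 0 < N by linarith)
          (show 0 < N - 2 by linarith))]
      have : 2 * N / (N - 2) < 1 + 2 * (N - 1) / (N - 2) := by
        rw [show 1 + 2 * (N - 1) / (N - 2) = (3 * N - 4) / (N - 2) by field_simp; ring]
        exact div_lt_div_of_pos_right (by linarith) (by linarith)
      linarith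
    have e : 1 * ((N * (1 + T) / (N - 2) + 1 - 1) * (N * T - (N - 2) * 1) / (N * (1 + T))
          + 2 * ((N - 1) / (N * (1 + T))) * (1 * (1 - 1)) - (2 * 1 - 1 + aA N p q))
        + (N + 2) / N * (1 * (1 - 1) - 1 * (N * (N * (1 + T) / (N - 2)
          - N * (1 + T) / ((N - 2) * T) * 1) - 2 * (1 - 1)) / (N + 2))
        = N * (1 + T) / ((N - 2) * T) - (1 + 2 * (N - 1) / (N - 2) + aA N p q) := by
      field_simp
      ring
    rw [e]
    linarith
  · rw [max_eq_right h.le]
    set σ := (N - 2) * T / N with hσ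
    have : σ + T ≠ 0 := by linarith
    have e : σ * ((N * (1 + T) / (N - 2) + 1 - σ) * (N * T - (N - 2) * σ) / (N * (σ + T))
          + 2 * ((N - 1) / (N * (σ + T))) * (σ * (σ - 1)) - (2 * σ - 1 + aA N p q))
        + (N + 2) / N * (σ * (σ - 1) - σ * (N * (N * (1 + T) / (N - 2)
          - N * (1 + T) / ((N - 2) * T) * σ) - 2 * (σ - 1)) / (N + 2))
        = -(σ * (1 + aA N p q)) := by
      have : N - 1 ≠ 0 := by linarith
      rw [show σ + T = 2 * (N - 1) * T / N by rw [hσ]; field_simp; ring, hσ]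
      field_simp
      ring
    rw [e]
    have : 0 < σ * (1 + aA N p q) := mul_pos (by linarith) (by linarith)
    linarith

end Five

namespace IsOrbitExt

open Five

variable {N p q τ₀ τb τ : ℝ} {S κ ε : ℝ → ℝ}

lemma five_si_lt (o : IsOrbitExt N p q τ₀ τb S κ ε) (R : Range N p q) {x : ℝ} (hx : x ≤ τ₀) :
    si N p q < S x :=
  max_lt (o.one_lt x (hx.trans_lt o.τ₀_lt_τb))
    (o.sEq_lt (by linarith [R.hN]) R.hp R.hq R.hcrit hx)

lemma five_lt_rb (o : IsOrbitExt N p q τ₀ τb S κ ε) (R : Range N p q) {x : ℝ} (hx : x ≤ τ₀) :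
    S x < si N p q + rb N p q :=
  (o.S_lt_s2 (by linarith [R.hN]) R.hp R.hq R.hpq R.hcrit hx).trans (sTwo_lt R)

/-- Where `U σ ≤ W` the barrier applies. -/
lemma five_dom (o : IsOrbitExt N p q τ₀ τb S κ ε) (R : Range N p q) {x : ℝ} (hx : x ≤ τ₀)
    (hF : U N p q (S x) ≤ oW p q S x) : S x < si N p q + 95 / 100 * rb N p q := by
  have hN2 : (2:ℝ) < N := by linarith [R.hN]
  by_contra h
  push Not at h
  have h1 := wm_lt_U R h (o.five_lt_rb R hx)
  rcases hx.eq_or_lt with rfl | hlt
  · linarith [o.W_τ₀ (by linarith) R.hp R.hq]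
  · linarith [o.W_lt_wm hN2 R.hp R.hq R.hpq R.hcrit hlt]

/-- **`W ≤ U σ` below `τ₀`.** -/
theorem five_oW_le_U (o : IsOrbitExt N p q τ₀ τb S κ ε) (R : Range N p q) (hτ : τ < τ₀) :
    oW p q S τ ≤ U N p q (S τ) := by
  have hN := R.hN
  have hp := R.hp
  have hq := R.hq
  have hpq := R.hpq
  have hcrit := R.hcrit
  have hN2 : 2 < N := by linarith
  by_contra hgt
  push Not at hgt
  have hb : ∀ x ≤ τ₀, x < τb := fun x hx => hx.trans_lt o.τ₀_lt_τb
  have hU0 : ∀ x ≤ τ₀, 0 < U N p q (S x) := fun x hx =>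
    U_pos R (o.five_si_lt R hx) (o.five_lt_rb R hx)
  set F : ℝ → ℝ := fun x => oW p q S x - U N p q (S x) with hF
  set F' : ℝ → ℝ := fun x =>
    deriv (oW p q S) x - U' N p q (S x) * (oW p q S x / ((p + 1) - (q + 1) * S x)) with hF'
  have hbar : ∀ x, x ≤ τ₀ → 0 ≤ F x → 0 < Et N p q (S x) ∧ ∃ T' : ℝ,
      HasDerivAt (Th N p q) T' (S x) ∧
        ((p + 1) - (q + 1) * S x) * Th N p q (S x) < T' * U N p q (S x) := fun x hx h0 =>
    barrier5 R (o.five_si_lt R hx) (o.five_dom R hx (by simp only [hF] at h0; linarith))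
  choose hEt T' hT' hTU using hbar
  set G : ℝ → ℝ := fun x => Real.exp x - Th N p q (S x) with hG
  set G' : ℝ → ℝ := fun x => if h : x ≤ τ₀ ∧ 0 ≤ F x then
    Real.exp x - T' x h.1 h.2 * (oW p q S x / ((p + 1) - (q + 1) * S x)) else 0 with hG'
  have dF : ∀ x ≤ τ₀, HasDerivAt F (F' x) x := fun x hx =>
    (o.hasDerivAt_W (hb x hx)).sub ((U_hasDerivAt N p q (S x)).comp x
      (o.hasDerivAt_S hq (hb x hx)))
  have dG : ∀ x ≤ τ₀, 0 ≤ F x → HasDerivAt G (G' x) x := fun x hx h0 => by
    simp only [hG', dif_pos (And.intro hx h0)]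
    exact (Real.hasDerivAt_exp x).sub ((hT' x hx h0).comp x (o.hasDerivAt_S hq (hb x hx)))
  -- on `t = T σ` above the barrier `t - T σ` decreases
  have negG : ∀ x ≤ τ₀, G x = 0 → 0 ≤ F x → G' x < 0 := fun x hx hG0 hF0 => by
    simp only [hG', dif_pos (And.intro hx hF0)]
    simp only [hG] at hG0
    have hL := o.L_pos hq (hb x hx)
    have hU := hU0 x hx
    have h := hTU x hx hF0
    simp only [hF] at hF0
    rw [show Th N p q (S x) = Real.exp x by linarith] at h
    generalize T' x hx _ = d at h ⊢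
    have h1 : 0 < d := pos_of_mul_pos_left ((mul_pos hL (Real.exp_pos x)).trans h) hU.le
    rw [sub_neg, ← mul_div_assoc, lt_div_iff₀ hL]
    calc Real.exp x * ((p + 1) - (q + 1) * S x) < d * U N p q (S x) := by linarith
      _ ≤ d * oW p q S x := mul_le_mul_of_nonneg_left (by linarith) h1.le
  have hVu : ∀ x ≤ τ₀, 0 < S x * (S x - 1) + U N p q (S x) := fun x hx => by
    have := mul_pos (one_pos.trans (o.one_lt x (hb x hx))) (sub_pos.2 (o.one_lt x (hb x hx)))
    linarith [hU0 x hx]
  -- the rate of `W - U σ`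
  have rate : ∀ x < τ₀, 0 ≤ F x → (S x * (S x - 1) + oW p q S x)
      * (κ x * (F' x * ((p + 1) - (q + 1) * S x))) = -(G x * Et N p q (S x))
      + F x * ((S x - Real.exp x) * (k0 N p q (S x) + 2 * nu N p q (S x) * (S x * (S x - 1))
          + 2 * nu N p q (S x) * (oW p q S x + U N p q (S x)) - (2 * S x - 1 + U' N p q (S x)))
        + (N + 2) / N * (S x * (S x - 1) + oW p q S x - (wm N p q (S x) - U N p q (S x)))) := by
    intro x hx h0
    have hxb := hb x hx.le
    have hr := o.rateW (by linarith) hp hq hxb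
    have hV := o.eqV hxb
    simp only [oV] at hr hV
    have hL := (o.L_pos hq hxb).ne'
    have hE := (hEt x hx.le h0).ne'
    have hGE : G x * Et N p q (S x) = (Real.exp x - S x) * Et N p q (S x)
        + (S x * (S x - 1) + U N p q (S x)) * Cf N p q (S x) := by
      simp only [hG, Th]
      field_simp
      ring
    rw [hGE]
    simp only [hF, hF', sub_mul, mul_assoc (U' N p q (S x)), div_mul_cancel₀ _ hL]
    simp only [Et, Cf]
    linear_combination (S x * (S x - 1) + oW p q S x) * hr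
      + ((oW p q S x + S x * (S x - 1)) * (k0 N p q (S x) + 2 * nu N p q (S x) * oW p q S x)
          - (2 * S x - 1) * oW p q S x - U' N p q (S x) * oW p q S x) * hV
  have rel : ∀ x < τ₀, F x = 0 → (F' x ≤ 0 → 0 ≤ G x) ∧ (0 < G x → F' x < 0) := fun x hx hF0 => by
    have hr := rate x hx hF0.ge
    rw [hF0, zero_mul, add_zero] at hr
    have hk := o.κ_pos x hx
    have hL := o.L_pos hq (hb x hx.le)
    have hE := hEt x hx.le hF0.ge
    have hV : 0 < S x * (S x - 1) + oW p q S x := by
      simp only [hF] at hF0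
      linarith [hVu x hx.le]
    refine ⟨fun h => nonneg_of_mul_nonneg_left (b := Et N p q (S x)) ?_ hE, fun h => ?_⟩
    · have := mul_nonpos_of_nonneg_of_nonpos hV.le
        (mul_nonpos_of_nonneg_of_nonpos hk.le (mul_nonpos_of_nonpos_of_nonneg h hL.le))
      linarith
    · by_contra hge
      push Not at hge
      have := mul_pos h hE
      have := mul_nonneg hV.le (mul_nonneg hk.le (mul_nonneg hge hL.le))
      linarith
  -- the point `c`: first zero of `W - U σ` right of `τ`, or `τ₀`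
  obtain ⟨c, hτc, hc0, hpos, hFc, hGc⟩ :
      ∃ c, τ < c ∧ c ≤ τ₀ ∧ (∀ x ∈ Ico τ c, 0 < F x) ∧ 0 ≤ F c ∧ 0 ≤ G c := by
    have cF : ContinuousOn F (Icc τ τ₀) := fun x hx => (dF x hx.2).continuousAt.continuousWithinAt
    have hFτ : 0 < F τ := by simp only [hF]; linarith
    have atτ₀ : 0 ≤ F τ₀ → 0 ≤ G τ₀ := fun h0 => by
      have hE := hEt τ₀ le_rfl h0
      simp only [hF, o.W_τ₀ (by linarith) hp hq] at h0
      have hCf : 0 ≤ Cf N p q (S τ₀) := mul_nonneg (div_nonneg (by linarith) (by linarith)) h0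
      simp only [hG, Th, o.exp_τ₀]
      have := div_nonneg (mul_nonneg (hVu τ₀ le_rfl).le hCf) hE.le
      linarith
    by_cases hz : ∃ x ∈ Icc τ τ₀, F x ≤ 0
    · obtain ⟨x, hx, hx0⟩ := hz
      have hcl : IsCompact (Icc τ τ₀ ∩ F ⁻¹' Iic 0) := isCompact_Icc.of_isClosed_subset
        (cF.preimage_isClosed_of_isClosed isClosed_Icc isClosed_Iic) inter_subset_left
      obtain ⟨c, ⟨hc, hcF⟩, hmin⟩ := hcl.exists_isLeast ⟨x, hx, hx0⟩
      have hτc : τ < c := hc.1.lt_of_ne fun e => by
        simp only [mem_preimage, mem_Iic, ← e] at hcF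
        linarith
      have hbefore : ∀ y ∈ Ico τ c, 0 < F y := fun y hy => by
        by_contra h
        exact absurd (hmin ⟨⟨hy.1, hy.2.le.trans hc.2⟩, not_lt.1 h⟩) (not_le.2 hy.2)
      have hFc : F c = 0 := le_antisymm hcF (ge_of_tendsto
        ((dF c hc.2).continuousAt.tendsto.mono_left (nhdsWithin_le_nhds (s := Iio c)))
        (by filter_upwards [Ioo_mem_nhdsLT hτc] with y hy; exact (hbefore y ⟨hy.1.le, hy.2⟩).le))
      refine ⟨c, hτc, hc.2, hbefore, hFc.ge, ?_⟩
      rcases hc.2.eq_or_lt with e | e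
      · rw [e] at hFc ⊢; exact atτ₀ hFc.ge
      · refine (rel c e hFc).1 (le_of_not_gt fun h => ?_)
        obtain ⟨y, hy, hyI⟩ := ((((hasDerivAt_iff_tendsto_slope.1 (dF c hc.2))).mono_left
          (nhdsLT_le_nhdsNE c)).eventually (eventually_gt_nhds h) |>.and
          (Ioo_mem_nhdsLT hτc)).exists
        rw [slope_def_field, hFc, sub_zero] at hy
        have := div_neg_of_pos_of_neg (hbefore y ⟨hyI.1.le, hyI.2⟩) (sub_neg.2 hyI.2)
        linarith
    · push Not at hz
      exact ⟨τ₀, hτ, le_rfl, fun x hx => hz x (Ico_subset_Icc_self hx),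
        (hz τ₀ (right_mem_Icc.2 hτ.le)).le, atτ₀ (hz τ₀ (right_mem_Icc.2 hτ.le)).le⟩
  -- a strict starting point
  obtain ⟨b, hb1, hb2, hGb⟩ : ∃ b, τ < b ∧ b < c ∧ 0 < G b := by
    rcases hGc.eq_or_lt with e | e
    · obtain ⟨b, hb, h⟩ := pos_left hτc (dG c hc0 hFc) e.symm (negG c hc0 e.symm hFc)
      exact ⟨b, hb.1, hb.2, h⟩
    · obtain ⟨b, h, hb⟩ := ((((dG c hc0 hFc).continuousAt.tendsto.mono_left
        (nhdsWithin_le_nhds (s := Iio c))).eventually (eventually_gt_nhds e)).and
        (Ioo_mem_nhdsLT hτc)).exists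
      exact ⟨b, hb.1, hb.2, h⟩
  have hbτ : b < τ₀ := hb2.trans_le hc0
  have hFb : 0 < F b := hpos b ⟨hb1.le, hb2⟩
  have back : ∀ a ≤ b, (∀ x ∈ Icc a b, 0 ≤ F x) → 0 < F a ∧ 0 < G a := fun a hab hnn =>
    pair_pos_back (f := F) (g := G) hab (fun x hx => dF x (hx.2.trans hbτ.le))
      (fun x hx => dG x (hx.2.trans hbτ.le) (hnn x hx))
      (fun x hx h0 hg => (rel x (hx.2.trans hbτ) h0).2 hg)
      (fun x hx h0 hf => negG x (hx.2.trans hbτ).le h0 hf) hFb hGb
  have hFpos : ∀ a ≤ b, 0 < F a := by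
    intro a hab
    by_contra hle
    push Not at hle
    have cF : ContinuousOn F (Icc a b) := fun x hx =>
      (dF x (hx.2.trans hbτ.le)).continuousAt.continuousWithinAt
    have hcl : IsCompact (Icc a b ∩ F ⁻¹' Iic 0) := isCompact_Icc.of_isClosed_subset
      (cF.preimage_isClosed_of_isClosed isClosed_Icc isClosed_Iic) inter_subset_left
    obtain ⟨a', ⟨ha', ha0⟩, hmax⟩ := hcl.exists_isGreatest ⟨a, left_mem_Icc.2 hab, hle⟩
    have ha'b : a' < b := ha'.2.lt_of_ne fun e => by
      simp only [mem_preimage, mem_Iic, e] at ha0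
      linarith
    have hafter : ∀ x ∈ Ioc a' b, 0 < F x := fun x hx => by
      by_contra h
      exact absurd (hmax ⟨⟨ha'.1.trans hx.1.le, hx.2⟩, not_lt.1 h⟩) (not_le.2 hx.1)
    have h0 : 0 ≤ F a' := ge_of_tendsto
      ((dF a' (ha'.2.trans hbτ.le)).continuousAt.tendsto.mono_left
        (nhdsWithin_le_nhds (s := Ioi a')))
      (by filter_upwards [Ioo_mem_nhdsGT ha'b] with x hx; exact (hafter x ⟨hx.1, hx.2.le⟩).le)
    simp only [mem_preimage, mem_Iic] at ha0
    linarith [(back a' ha'b.le fun x hx => hx.1.eq_or_lt.elim (fun e => e ▸ h0)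
      fun e => (hafter x ⟨e, hx.2⟩).le).1]
  have hGpos : ∀ a ≤ b, 0 < G a := fun a hab =>
    (back a hab fun x hx => (hFpos x hx.2).le).2
  -- the limit at `-∞`
  have hmem : ∀ x < τ₀, oW p q S x = orbW S (fun y => (κ y)⁻¹) x := fun x hx0 => by
    have h := o.eqV (hx0.trans o.τ₀_lt_τb)
    have hk := (o.κ_pos x hx0).ne'
    rw [orbW, ← h, inv_mul_cancel_left₀ hk, oV]
    ring
  obtain ⟨hS, hW0, -, -⟩ := o.below.tail_limits hN2 hp hq hbτ fun x hx =>
    hmem x (hx.trans_lt hbτ) ▸ o.W_nonneg hN2 hp hq hcrit (hx.trans_lt hbτ)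
  rw [show sInf' N p q = si N p q by rw [sInf', si, sEq, div_mul_div_comm]] at hS
  have hW : Tendsto (oW p q S) atBot (𝓝 0) := hW0.congr' (by
    filter_upwards [eventually_le_atBot b] with x hx
    exact (hmem x (hx.trans_lt hbτ)).symm)
  have hU : Tendsto (fun x => U N p q (S x)) atBot (𝓝 0) := by
    have := ((U_hasDerivAt N p q (si N p q)).continuousAt.tendsto).comp hS
    have e : U N p q (si N p q) = 0 := by simp [U]
    rw [e] at this
    exact this
  have hUd : Tendsto (fun x => U' N p q (S x)) atBot (𝓝 (aA N p q)) := by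
    have := ((U'_hasDerivAt N p q (si N p q)).continuousAt.tendsto).comp hS
    have e : U' N p q (si N p q) = aA N p q := by simp [U']
    rw [e] at this
    exact this
  have hsp : 0 < si N p q + (p + 1) / (q + 1) :=
    add_pos (lt_of_lt_of_le one_pos (le_max_left _ _)) (by positivity)
  have hk0 : Tendsto (fun x => k0 N p q (S x)) atBot (𝓝 (k0 N p q (si N p q))) := by
    have h : ContinuousAt (fun s => k0 N p q s) (si N p q) := by
      unfold k0
      fun_prop (disch := positivity)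
    exact h.tendsto.comp hS
  have hnu : Tendsto (fun x => nu N p q (S x)) atBot (𝓝 (nu N p q (si N p q))) := by
    have h : ContinuousAt (fun s => nu N p q s) (si N p q) := by
      unfold nu
      fun_prop (disch := positivity)
    exact h.tendsto.comp hS
  have hwm : Tendsto (fun x => wm N p q (S x)) atBot (𝓝 (wm N p q (si N p q))) := by
    have h : ContinuousAt (fun s => wm N p q s) (si N p q) := by
      unfold wm
      fun_prop
    exact h.tendsto.comp hS
  have hB := (((hS.sub Real.tendsto_exp_atBot).mul (((hk0.add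
      ((hnu.const_mul 2).mul (hS.mul (hS.sub_const 1)))).add
      ((hnu.const_mul 2).mul (hW.add hU))).sub (((hS.const_mul 2).sub_const 1).add hUd))).add
    ((((hS.mul (hS.sub_const 1)).add hW).sub (hwm.sub hU)).const_mul ((N + 2) / N)))
  simp only [add_zero, sub_zero, mul_zero] at hB
  obtain ⟨X, hX⟩ := eventually_atBot.1 ((hB.eventually (eventually_lt_nhds (wm_at_si_neg R))).and
    (eventually_le_atBot b))
  have hneg : ∀ x ≤ X, F' x < 0 := fun x hx => by
    obtain ⟨hBx, hxb⟩ := hX x hx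
    have hx0 := hxb.trans_lt hbτ
    have hFx := hFpos x hxb
    have hr := rate x hx0 hFx.le
    by_contra hge
    push Not at hge
    have hV : 0 < S x * (S x - 1) + oW p q S x := by
      simp only [hF] at hFx
      linarith [hVu x hx0.le]
    have := mul_nonneg hV.le (mul_nonneg (o.κ_pos x hx0).le
      (mul_nonneg hge (o.L_pos hq (hb x hx0.le)).le))
    have := mul_pos (hGpos x hxb) (hEt x hx0.le hFx.le)
    have := mul_nonpos_of_nonneg_of_nonpos hFx.le hBx.le
    linarith
  have hXb : X ≤ b := (hX X le_rfl).2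
  have hanti : ∀ x ≤ X, F X ≤ F x := fun x hx => by
    refine antitoneOn_of_deriv_nonpos (convex_Icc x X) (fun y hy =>
      (dF y (hy.2.trans (hXb.trans hbτ.le))).continuousAt.continuousWithinAt)
      (fun y hy => ?_) (fun y hy => ?_) (left_mem_Icc.2 hx) (right_mem_Icc.2 hx) hx
    · rw [interior_Icc] at hy
      exact (dF y (hy.2.le.trans (hXb.trans hbτ.le))).differentiableAt.differentiableWithinAt
    · rw [interior_Icc] at hy
      rw [(dF y (hy.2.le.trans (hXb.trans hbτ.le))).deriv]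
      exact (hneg y hy.2.le).le
  have hlim : Tendsto F atBot (𝓝 0) := by simpa [hF] using hW.sub hU
  linarith [hFpos X hXb, le_of_tendsto_of_tendsto tendsto_const_nhds hlim
    ((eventually_le_atBot X).mono fun x hx => hanti x hx)]

/-- `W ≤ U σ` at `τ₀`. -/
theorem five_W_τ₀_le_U (o : IsOrbitExt N p q τ₀ τb S κ ε) (R : Range N p q) :
    oW p q S τ₀ ≤ U N p q (S τ₀) := by
  have hS := o.hasDerivAt_S R.hq o.τ₀_lt_τb
  refine le_of_tendsto_of_tendsto
    ((o.continuousAt_W o.τ₀_lt_τb).tendsto.mono_left (nhdsWithin_le_nhds (s := Iio τ₀)))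
    ((((U_hasDerivAt N p q _).comp τ₀ hS).continuousAt.tendsto).mono_left
      (nhdsWithin_le_nhds (s := Iio τ₀))) ?_
  filter_upwards [self_mem_nhdsWithin] with x hx
  exact o.five_oW_le_U R hx

/-- **The position of `σ₀`.** -/
theorem five_e0_le (o : IsOrbitExt N p q τ₀ τb S κ ε) (R : Range N p q) :
    si N p q + e0 N p q * rb N p q ≤ S τ₀ := by
  by_contra h
  push Not at h
  have h1 := U_lt_wm R (o.five_si_lt R le_rfl) h
  linarith [o.five_W_τ₀_le_U R, o.W_τ₀ (by linarith [R.hN]) R.hp R.hq]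

end IsOrbitExt

end Vale.Agent.P100T
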